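import Vale.Agent.P128.TB.ArcA

/-! P128 TB/ArcB (TASK): integrals over the arcs. Helper names start with `ab_`.
`offK K y s` is a.e. equal to `Ioc (-π) π` (the complement in it is finite: countable preimage, `Set.Countable.preimage_circleMap`). `t ↦ F (circleMap y s t)` is `2π`-periodic:
`isAddFundamentalDomain_Ioc`, `IsAddFundamentalDomain.setLIntegral_eq`, `setIntegral_eq`, `integrableOn_iff` move the integral to `Ioc (θ 0) (θ 0 + 2π) = Ioc (θ 0) (θ n)`; induction on `m ≤ n` for `Ioc (θ 0) (θ m)` (`Ioc_union_Ioc_eq_Ioc`, `Ioo_ae_eq_Ioc`). -/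

namespace Vale.Agent.P128

open MeasureTheory Set Metric Filter Topology
open scoped ENNReal

variable {K : Set ℂ} {y : ℂ} {s : ℝ} {n : ℕ} {θ : ℕ → ℝ}

theorem ab_ae (h : Arcs K y s n θ) (hs : 0 < s) : offK K y s =ᵐ[volume] Ioc (-Real.pi) Real.pi := by
  have hfin : (K ∩ sphere y s).Finite := by
    rw [h.eq]
    exact (finite_Iio n).image _
  have hc := (hfin.countable.preimage_circleMap y hs.ne').measure_zero volume
  filter_upwards [compl_mem_ae_iff.2 hc] with t ht
  refine propext ⟨fun a => a.1, fun a => ⟨a, fun b => ht ⟨b, circleMap_mem_sphere y hs.le t⟩⟩⟩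

theorem ab_fd (a : ℝ) :
    IsAddFundamentalDomain (AddSubgroup.zmultiples (2 * Real.pi)) (Ioc a (a + 2 * Real.pi)) volume :=
  isAddFundamentalDomain_Ioc Real.two_pi_pos a

theorem ab_fd0 :
    IsAddFundamentalDomain (AddSubgroup.zmultiples (2 * Real.pi)) (Ioc (-Real.pi) Real.pi) volume := by
  have := ab_fd (-Real.pi)
  rwa [show -Real.pi + 2 * Real.pi = Real.pi by ring] at this

theorem ab_per {α : Type} {g : ℝ → α} (hp : Function.Periodic g (2 * Real.pi))
    (c : AddSubgroup.zmultiples (2 * Real.pi)) (x : ℝ) : g (c +ᵥ x) = g x :=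
  hp.map_vadd_zmultiples c x

theorem ab_meas (h : Arcs K y s n θ) (m : ℕ) : volume.restrict (Ioc (θ 0) (θ m)) =
    ∑ j ∈ Finset.range m, volume.restrict (Ioo (θ j) (θ (j + 1))) := by
  induction m with
  | zero => simp
  | succ m ih =>
    rw [Finset.sum_range_succ, ← ih, Measure.restrict_congr_set Ioo_ae_eq_Ioc,
      ← Measure.restrict_union (Ioc_disjoint_Ioc_of_le le_rfl) measurableSet_Ioc,
      Ioc_union_Ioc_eq_Ioc (h.mono.monotone (Nat.zero_le m)) (h.mono.monotone (Nat.le_succ m))]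

theorem ab_end (h : Arcs K y s n θ) (j : ℕ) : θ j + 2 * Real.pi = θ (j + n) := (h.per j).symm

theorem Arcs.lint (h : Arcs K y s n θ) (hs : 0 < s) (F : ℂ → ℝ≥0∞) :
    ∫⁻ t in offK K y s, F (circleMap y s t) =
      ∑ j ∈ Finset.range n, ∫⁻ t in Ioo (θ j) (θ (j + 1)), F (circleMap y s t) := by
  rw [setLIntegral_congr (ab_ae h hs), ab_fd0.setLIntegral_eq (ab_fd (θ 0))
    (fun t => F (circleMap y s t)) (ab_per ((periodic_circleMap y s).comp F)), ab_end h, zero_add, ab_meas h,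
    lintegral_finsetSum_measure]

theorem Arcs.int (h : Arcs K y s n θ) (hs : 0 < s) {g : ℝ → ℝ}
    (hp : Function.Periodic g (2 * Real.pi)) :
    (IntegrableOn g (offK K y s) ↔ ∀ j, IntegrableOn g (Ioo (θ j) (θ (j + 1)))) ∧
    (IntegrableOn g (offK K y s) →
      ∫ t in offK K y s, g t = ∑ j ∈ Finset.range n, ∫ t in Ioo (θ j) (θ (j + 1)), g t) := by
  have e : ∀ a, IntegrableOn g (offK K y s) ↔ IntegrableOn g (Ioc a (a + 2 * Real.pi)) := fun a =>
    (integrableOn_congr_set_ae (ab_ae h hs)).trans (ab_fd0.integrableOn_iff (ab_fd a) (ab_per hp))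
  have e1 : IntegrableOn g (offK K y s) → ∀ j, IntegrableOn g (Ioo (θ j) (θ (j + 1))) := by
    intro hg j
    refine ((e (θ j)).1 hg).mono_set (Ioo_subset_Ioc_self.trans (Ioc_subset_Ioc_right ?_))
    rw [ab_end h]
    exact h.mono.monotone (by have := h.pos; omega)
  refine ⟨⟨e1, fun hg => ?_⟩, fun hg => ?_⟩
  · rw [e (θ 0), ab_end h, zero_add, IntegrableOn, ab_meas h, integrable_finsetSum_measure]
    exact fun j _ => hg j
  · rw [setIntegral_congr_set (ab_ae h hs), ab_fd0.setIntegral_eq (ab_fd (θ 0)) (ab_per hp),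
      ab_end h, zero_add, ab_meas h, integral_finsetSum_measure fun j _ => e1 hg j]

/-- A nonempty finite set of points cuts the circle into arcs: angles in increasing order. -/
theorem arcs {K : Set ℂ} {y : ℂ} {s : ℝ} (hs : 0 < s) (hfin : (K ∩ sphere y s).Finite)
    (hne : (K ∩ sphere y s).Nonempty) :
    ∃ (n : ℕ) (θ : ℕ → ℝ), 0 < n ∧ (K ∩ sphere y s).encard = n ∧ StrictMono θ ∧
      (∀ j, θ (j + n) = θ j + 2 * Real.pi) ∧ (∀ j, circleMap y s (θ j) ∈ K) ∧
      (∀ j, ∀ t ∈ Ioo (θ j) (θ (j + 1)), circleMap y s t ∉ K) ∧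
      K ∩ sphere y s = (fun j => circleMap y s (θ j)) '' Iio n ∧
      (∀ F : ℂ → ℝ≥0∞, Measurable F → ∫⁻ t in offK K y s, F (circleMap y s t) =
        ∑ j ∈ Finset.range n, ∫⁻ t in Ioo (θ j) (θ (j + 1)), F (circleMap y s t)) ∧
      ∀ F : ℂ → ℝ, (∀ j, IntegrableOn (fun t => F (circleMap y s t)) (Ioo (θ j) (θ (j + 1)))) →
        IntegrableOn (fun t => F (circleMap y s t)) (offK K y s) ∧
        ∫ t in offK K y s, F (circleMap y s t) =
          ∑ j ∈ Finset.range n, ∫ t in Ioo (θ j) (θ (j + 1)), F (circleMap y s t) := by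
  obtain ⟨n, θ, h⟩ := exists_arcs hs hfin hne
  refine ⟨n, θ, h.pos, h.card, h.mono, h.per, h.mem, h.off, h.eq, fun F _ => h.lint hs F,
    fun F hF => ?_⟩
  have := h.int hs ((periodic_circleMap y s).comp F)
  exact ⟨this.1.2 hF, this.2 (this.1.2 hF)⟩

end Vale.Agent.P128
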