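import Vale.Agent.P128.TB.ArcA
import Vale.Agent.P128.TA2.Lip

/-! P128 TB/ArcC (TASK): topology of the arcs. Helper names start with `ac_`.
`cover`: write `z = circleMap y s t` with `t ∈ Ico (θ 0) (θ 0 + 2π)` (`toIcoMod`), take the largest `j` with `θ j ≤ t` (`Nat.findGreatest` / `Nat.find`); `t ≠ θ j` because `z ∉ K`.
`gap`: otherwise `[θ j + e, θ j + e + ω] ⊆ Ioo`. `sep`: the range of the path is preconnected and covered by the closed sets `circleMap y s '' Icc (θ i) (θ (i+1))` and the union of the others (`j < n`, `j ≠ i`);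
off `K` these are disjoint (injectivity of `circleMap` on `Ico (θ 0) (θ 0 + 2π)`); `isPreconnected_closed_iff`. `one`: `n = 1`, `cover`, `JoinedIn` along the image of the convex interval (`IsPathConnected.image`, `JoinedIn.mono`); `Gap`: `toIcoMod`. -/

namespace Vale.Agent.P128

open MeasureTheory Set Metric Filter Topology
open scoped ENNReal

variable {K : Set ℂ} {y : ℂ} {s : ℝ} {n : ℕ} {θ : ℕ → ℝ}

theorem ac_ang (hs : 0 < s) {z : ℂ} (hz : z ∈ sphere y s) (a : ℝ) :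
    ∃ t ∈ Ico a (a + 2 * Real.pi), z = circleMap y s t := by
  rw [← abs_of_pos hs, ← range_circleMap] at hz
  obtain ⟨x, rfl⟩ := hz
  exact (periodic_circleMap y s).exists_mem_Ico Real.two_pi_pos x a

theorem ac_top (h : Arcs K y s n θ) : θ n = θ 0 + 2 * Real.pi := by
  rw [← h.per 0, zero_add]

theorem ac_Ioo (h : Arcs K y s n θ) {j : ℕ} {t : ℝ} (ht : t ∈ Icc (θ j) (θ (j + 1)))
    (hK : circleMap y s t ∉ K) : t ∈ Ioo (θ j) (θ (j + 1)) :=
  ⟨lt_of_le_of_ne ht.1 fun e => hK (e ▸ h.mem j), lt_of_le_of_ne ht.2 fun e => hK (e ▸ h.mem _)⟩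

theorem ac_inj (h : Arcs K y s n θ) (hs : 0 < s) {i j : ℕ} (hi : i < n) (hj : j < n) {a b : ℝ}
    (ha : a ∈ Ioo (θ i) (θ (i + 1))) (hb : b ∈ Ioo (θ j) (θ (j + 1)))
    (e : circleMap y s a = circleMap y s b) : i = j := by
  have h1 := h.mono.monotone (Nat.zero_le i)
  have h2 := h.mono.monotone (Nat.zero_le j)
  have h3 := h.mono.monotone (Nat.succ_le_of_lt hi)
  have h4 := h.mono.monotone (Nat.succ_le_of_lt hj)
  rw [ac_top h] at h3 h4
  obtain rfl := eq_of_circleMap_eq hs.ne' (abs_lt.2 ⟨by linarith [ha.1, hb.2], by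
    linarith [ha.2, hb.1]⟩) e
  have h5 := h.mono.lt_iff_lt.1 (ha.1.trans hb.2)
  have h6 := h.mono.lt_iff_lt.1 (hb.1.trans ha.2)
  omega

theorem Arcs.cover (h : Arcs K y s n θ) (hs : 0 < s) {z : ℂ} (hz : z ∈ sphere y s \ K) :
    ∃ j < n, ∃ t ∈ Ioo (θ j) (θ (j + 1)), z = circleMap y s t := by
  classical
  obtain ⟨t, ht, rfl⟩ := ac_ang hs hz.1 (θ 0)
  rw [← ac_top h] at ht
  have ex : ∃ j, t < θ (j + 1) := ⟨n, ht.2.trans (h.mono n.lt_succ_self)⟩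
  have h1 : θ (Nat.find ex) ≤ t := by
    rcases e : Nat.find ex with _ | j
    · exact ht.1
    · exact not_lt.1 (Nat.find_min ex (e ▸ j.lt_succ_self))
  exact ⟨Nat.find ex, h.mono.lt_iff_lt.1 (h1.trans_lt ht.2), t,
    ac_Ioo h ⟨h1, (Nat.find_spec ex).le⟩ hz.2, rfl⟩

theorem Arcs.gap (h : Arcs K y s n θ) {ω : ℝ} (hg : Gap K y s ω) (j : ℕ) :
    θ (j + 1) - θ j ≤ ω := by
  by_contra hc
  obtain ⟨t, ht, hK⟩ := hg (θ j + (θ (j + 1) - θ j - ω) / 2)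
  exact h.off j t ⟨by linarith [ht.1], by linarith [ht.2]⟩ hK

theorem Arcs.sep (h : Arcs K y s n θ) (hs : 0 < s) {i j : ℕ} (hi : i < n) (hj : j < n) {a b : ℝ}
    (ha : a ∈ Ioo (θ i) (θ (i + 1))) (hb : b ∈ Ioo (θ j) (θ (j + 1)))
    (hJ : JoinedIn (sphere y s \ K) (circleMap y s a) (circleMap y s b)) : i = j := by
  by_contra hne
  obtain ⟨γ, hγ⟩ := hJ
  have cl : ∀ l, IsClosed (circleMap y s '' Icc (θ l) (θ (l + 1))) := fun l =>
    (isCompact_Icc.image (continuous_circleMap y s)).isClosed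
  obtain ⟨_, ⟨x, rfl⟩, ⟨a', ha', e1⟩, hb'⟩ := isPreconnected_closed_iff.1
    (isPreconnected_range γ.continuous) (circleMap y s '' Icc (θ i) (θ (i + 1)))
    (⋃ l ∈ Iio n \ {i}, circleMap y s '' Icc (θ l) (θ (l + 1))) (cl i)
    ((finite_Iio n).sdiff.isClosed_biUnion fun l _ => cl l) (by
      rintro _ ⟨x, rfl⟩
      obtain ⟨l, hl, t, ht, e⟩ := h.cover hs (hγ x)
      by_cases k : l = i
      · exact Or.inl ⟨t, k ▸ Ioo_subset_Icc_self ht, e.symm⟩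
      · exact Or.inr (mem_biUnion (x := l) ⟨hl, k⟩ ⟨t, Ioo_subset_Icc_self ht, e.symm⟩))
    ⟨_, ⟨0, γ.source⟩, a, Ioo_subset_Icc_self ha, rfl⟩
    ⟨_, ⟨1, γ.target⟩, mem_biUnion (x := j) ⟨hj, fun k => hne k.symm⟩
      ⟨b, Ioo_subset_Icc_self hb, rfl⟩⟩
  obtain ⟨l, hl, b', hb', e2⟩ := mem_iUnion₂.1 hb'
  exact hl.2 (ac_inj h hs hl.1 hi (ac_Ioo h hb' (e2 ▸ (hγ x).2)) (ac_Ioo h ha' (e1 ▸ (hγ x).2))
    (e2.trans e1.symm))

theorem Arcs.const (h : Arcs K y s n θ) (hs : 0 < s) {U : Set ℂ} {κ : ℂ → ℝ} (hκ : LC (U \ K) κ)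
    (hU : sphere y s ⊆ U) (j : ℕ) {a b : ℝ} (ha : a ∈ Ioo (θ j) (θ (j + 1)))
    (hb : b ∈ Ioo (θ j) (θ (j + 1))) : κ (circleMap y s a) = κ (circleMap y s b) := by
  refine hκ.const (isPreconnected_Ioo.image _ (continuous_circleMap y s).continuousOn) ?_
    (mem_image_of_mem _ ha) (mem_image_of_mem _ hb)
  rintro _ ⟨t, ht, rfl⟩
  exact ⟨hU (circleMap_mem_sphere y hs.le t), h.off j t ht⟩

theorem gap_nonempty (hs : 0 < s) {ω : ℝ} (hg : Gap K y s ω) : (K ∩ sphere y s).Nonempty := by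
  obtain ⟨t, -, ht⟩ := hg 0
  exact ⟨_, ht, circleMap_mem_sphere y hs.le t⟩

theorem arc_one (hs : 0 < s) (h : (K ∩ sphere y s).encard = 1) :
    (K ∩ sphere y s).Finite ∧ Gap K y s (2 * Real.pi) ∧ SepArcs K (fun _ => 0) y s := by
  have hf : (K ∩ sphere y s).Finite := finite_of_encard_eq_coe (k := 1) h
  have hne : (K ∩ sphere y s).Nonempty := nonempty_of_encard_ne_zero (by rw [h]; exact one_ne_zero)
  refine ⟨hf, fun a => ?_, fun p hp q hq _ => ?_⟩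
  · obtain ⟨z, h1, h2⟩ := hne
    obtain ⟨t, ht, rfl⟩ := ac_ang hs h2 a
    exact ⟨t, Ico_subset_Icc_self ht, h1⟩
  · obtain ⟨n, θ, hA⟩ := exists_arcs hs hf hne
    obtain rfl : n = 1 := by exact_mod_cast hA.card.symm.trans h
    obtain ⟨i, hi, a, ha, rfl⟩ := hA.cover hs hp
    obtain ⟨j, hj, b, hb, rfl⟩ := hA.cover hs hq
    obtain rfl : i = j := by omega
    refine ((((convex_Ioo _ _).isPathConnected ⟨a, ha⟩).image (continuous_circleMap y s)).joinedIn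
      _ (mem_image_of_mem _ ha) _ (mem_image_of_mem _ hb)).mono ?_
    rintro _ ⟨t, ht, rfl⟩
    exact ⟨circleMap_mem_sphere y hs.le t, hA.off i t ht⟩

end Vale.Agent.P128
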