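import Vale.Agent.P128.TB.W1

/-! P128 TB/W2 (TASK): Neumann and periodic Wirtinger inequalities. Helper names start with `w2_`.
`W2`: first part from `sq_sub_le` on `[s, t]` (`MemLp.restrict` / `mono_measure`, `setIntegral_mono_set`); so `f` is bounded on `Ioo a b`. `m = f t₀` is the mean (`exists_eq_setAverage`), `G t = ∫ x in a..t, (f x - m)`,
`G a = G b = 0`, `W1` for `G`; `(G (f - m))' = (f - m)² + G f'`, `intervalIntegral.integral_eq_sub_of_hasDerivAt_of_tendsto` (bounded times null), `-G f' ≤ (G² / L² + L² f'²) / 2`, `L = (b - a) / π`.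
`W3`: `φ θ = g (θ + π) - g θ` has `φ 0 = -φ (-π)`, so a zero `θ₀` (intermediate values); `W1` for `g - g θ₀` on `(θ₀, θ₀ + π)` and `(θ₀ + π, θ₀ + 2π)`; `g'` is periodic (uniqueness of derivatives), `Function.Periodic.intervalIntegral_add_eq`. -/

namespace Vale.Agent.P128

open MeasureTheory Set Metric Filter Topology
open scoped ENNReal

theorem w2_osc {f f' : ℝ → ℝ} {a b : ℝ}
    (hd : ∀ t ∈ Ioo a b, HasDerivAt f (f' t) t) (hL : MemLp f' 2 (volume.restrict (Ioo a b)))
    {s t : ℝ} (hs : s ∈ Ioo a b) (ht : t ∈ Ioo a b) (hst : s ≤ t) :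
    (f t - f s) ^ 2 ≤ (b - a) * ∫ t in Ioo a b, f' t ^ 2 := by
  have hsub : Icc s t ⊆ Ioo a b := Icc_subset_Ioo hs.1 ht.2
  have hsub' : Ioo s t ⊆ Ioo a b := Ioo_subset_Icc_self.trans hsub
  have h1 := sq_sub_le hst (fun x hx => (hd x (hsub hx)).continuousAt.continuousWithinAt)
    (fun x hx => hd x (hsub' hx)) (hL.mono_measure (Measure.restrict_mono_set _ hsub'))
  have h2 : ∫ x in Ioo s t, f' x ^ 2 ≤ ∫ x in Ioo a b, f' x ^ 2 :=
    setIntegral_mono_set hL.integrable_sq (Eventually.of_forall fun x => sq_nonneg _)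
      hsub'.eventuallyLE
  have h3 : 0 ≤ ∫ x in Ioo s t, f' x ^ 2 := integral_nonneg fun x => sq_nonneg _
  exact h1.trans (mul_le_mul (by linarith [hs.1, ht.2]) h2 h3 (by linarith [hs.1, hs.2]))

theorem w2_int {f : ℝ → ℝ} {a b : ℝ} (hab : a ≤ b) : ∫ t in a..b, f t = ∫ t in Ioo a b, f t := by
  rw [intervalIntegral.integral_of_le hab, integral_Ioc_eq_integral_Ioo]

theorem w2_mem {f : ℝ → ℝ} {a b B : ℝ} (hc : ContinuousOn f (Ioo a b))
    (hB : ∀ t ∈ Ioo a b, |f t| ≤ B) : MemLp f 2 (volume.restrict (Ioo a b)) :=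
  MemLp.of_bound (hc.aestronglyMeasurable measurableSet_Ioo) B
    ((ae_restrict_mem measurableSet_Ioo).mono hB)

theorem w2_memc {f : ℝ → ℝ} {a b : ℝ} (hc : ContinuousOn f (Icc a b)) :
    MemLp f 2 (volume.restrict (Ioo a b)) := by
  obtain ⟨B, hB⟩ := isCompact_Icc.exists_bound_of_continuousOn hc
  exact w2_mem (hc.mono Ioo_subset_Icc_self) fun t ht => hB t (Ioo_subset_Icc_self ht)

theorem w2_zero {F f' : ℝ → ℝ} {a b B : ℝ} (hab : a < b)
    (hd : ∀ t ∈ Ioo a b, HasDerivAt F (f' t) t) (hL : MemLp f' 2 (volume.restrict (Ioo a b)))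
    (hB : ∀ t ∈ Ioo a b, |F t| ≤ B) (h0 : ∫ t in Ioo a b, F t = 0) :
    ∫ t in Ioo a b, F t ^ 2 ≤ ((b - a) / Real.pi) ^ 2 * ∫ t in Ioo a b, f' t ^ 2 := by
  have hc : ContinuousOn F (Ioo a b) := fun x hx => (hd x hx).continuousAt.continuousWithinAt
  have hF := w2_mem hc hB
  have hI : IntervalIntegrable F volume a b :=
    (intervalIntegrable_iff_integrableOn_Ioo_of_le hab.le).2 (hF.integrable (by norm_num))
  set G : ℝ → ℝ := fun t => ∫ x in a..t, F x with hG
  have hGc : ContinuousOn G (Icc a b) := by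
    have := intervalIntegral.continuousOn_primitive_interval' hI left_mem_uIcc
    rwa [uIcc_of_le hab.le] at this
  have hGd : ∀ t ∈ Ioo a b, HasDerivAt G (F t) t := fun t ht =>
    intervalIntegral.integral_hasDerivAt_right
      (hI.mono_set (by
        rw [uIcc_of_le hab.le, uIcc_of_le ht.1.le]
        exact Icc_subset_Icc_right ht.2.le))
      (hc.stronglyMeasurableAtFilter isOpen_Ioo t ht) (hd t ht).continuousAt
  have hGa : G a = 0 := intervalIntegral.integral_same
  have hGb : G b = 0 := (w2_int hab.le).trans h0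
  have hGL := w2_memc hGc
  have h1 := (W1 hab hGc hGd hc hF hGa hGb).1
  have hi1 : Integrable (fun t => G t * f' t) (volume.restrict (Ioo a b)) :=
    hGL.integrable_mul hL
  have hi2 : IntegrableOn (fun t => F t ^ 2 + G t * f' t) (Ioo a b) := hF.integrable_sq.add hi1
  have hi3 : Integrable (fun t => G t ^ 2 + 2 * ((b - a) / Real.pi) ^ 2 * (G t * f' t))
      (volume.restrict (Ioo a b)) := hGL.integrable_sq.add (hi1.const_mul _)
  have lim : ∀ (c : ℝ) (l : Filter ℝ), c ∈ Icc a b → G c = 0 → l ≤ 𝓝 c → (∀ᶠ t in l, t ∈ Ioo a b) →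
      Tendsto (fun t => G t * F t) l (𝓝 0) := fun c l hc h0 hl hm => by
    have t1 : Tendsto G l (𝓝 0) := by
      rw [← h0]
      exact (hGc c hc).tendsto.mono_left
        (le_inf hl (le_principal_iff.2 (hm.mono fun t ht => Ioo_subset_Icc_self ht)))
    exact t1.zero_mul_isBoundedUnder_le ⟨B, eventually_map.2 (hm.mono fun t ht => hB t ht)⟩
  have h2 := intervalIntegral.integral_eq_sub_of_hasDerivAt_of_tendsto (f := fun t => G t * F t)
    (f' := fun t => F t ^ 2 + G t * f' t) hab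
    (fun t ht => by
      have := (hGd t ht).mul (hd t ht)
      rw [sq]
      exact this)
    ((intervalIntegrable_iff_integrableOn_Ioo_of_le hab.le).2 hi2)
    (lim a _ (left_mem_Icc.2 hab.le) hGa nhdsWithin_le_nhds (Ioo_mem_nhdsGT hab))
    (lim b _ (right_mem_Icc.2 hab.le) hGb nhdsWithin_le_nhds (Ioo_mem_nhdsLT hab))
  rw [w2_int hab.le, integral_add hF.integrable_sq hi1, sub_zero] at h2
  set L := ((b - a) / Real.pi) ^ 2 with hLd
  have hL0 : 0 < L := pow_pos (div_pos (sub_pos.2 hab) Real.pi_pos) 2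
  have h3 : 0 ≤ ∫ t in Ioo a b, (G t ^ 2 + 2 * L * (G t * f' t) + L ^ 2 * f' t ^ 2) :=
    integral_nonneg fun t => by
      have : 0 ≤ (G t + L * f' t) ^ 2 := sq_nonneg _
      simp only [Pi.zero_apply]
      linarith
  rw [integral_add hi3 (hL.integrable_sq.const_mul _),
    integral_add hGL.integrable_sq (hi1.const_mul _), integral_const_mul, integral_const_mul] at h3
  refine le_of_mul_le_mul_left ?_ hL0
  have h4 : ∫ t in Ioo a b, G t * f' t = -∫ t in Ioo a b, F t ^ 2 := by linarith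
  rw [h4] at h3
  linarith

/-- Neumann Wirtinger inequality. -/
theorem W2 {f f' : ℝ → ℝ} {a b : ℝ} (hab : a < b)
    (hd : ∀ t ∈ Ioo a b, HasDerivAt f (f' t) t) (hc' : ContinuousOn f' (Ioo a b))
    (hL : MemLp f' 2 (volume.restrict (Ioo a b))) :
    (∀ s ∈ Ioo a b, ∀ t ∈ Ioo a b, (f s - f t) ^ 2 ≤ (b - a) * ∫ t in Ioo a b, f' t ^ 2) ∧
    ∃ t₀ ∈ Ioo a b,
      ∫ t in Ioo a b, (f t - f t₀) ^ 2 ≤ ((b - a) / Real.pi) ^ 2 * ∫ t in Ioo a b, f' t ^ 2 := by
  have h1 : ∀ s ∈ Ioo a b, ∀ t ∈ Ioo a b,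
      (f s - f t) ^ 2 ≤ (b - a) * ∫ t in Ioo a b, f' t ^ 2 := fun s hs t ht => by
    rcases le_total s t with h | h
    · rw [← neg_sub, neg_sq]
      exact w2_osc hd hL hs ht h
    · exact w2_osc hd hL ht hs h
  refine ⟨h1, ?_⟩
  have hc : ContinuousOn f (Ioo a b) := fun x hx => (hd x hx).continuousAt.continuousWithinAt
  have hB : ∀ s ∈ Ioo a b, ∀ t ∈ Ioo a b,
      |f t - f s| ≤ √((b - a) * ∫ t in Ioo a b, f' t ^ 2) := fun s hs t ht =>
    Real.abs_le_sqrt (h1 t ht s hs)
  have hI : ∀ s ∈ Ioo a b, IntegrableOn (fun t => f t - f s) (Ioo a b) := fun s hs =>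
    (w2_mem (hc.sub continuousOn_const) (hB s hs)).integrable (by norm_num)
  obtain ⟨c, hcm⟩ := (nonempty_Ioo.2 hab : (Ioo a b).Nonempty)
  have hf : IntegrableOn f (Ioo a b) := by
    have := (hI c hcm).add (integrable_const (f c))
    exact this.congr (Eventually.of_forall fun t => by simp)
  have hfin : volume (Ioo a b) ≠ ⊤ := measure_Ioo_lt_top.ne
  obtain ⟨t₀, ht₀, e⟩ := exists_eq_setAverage (isConnected_Ioo hab) hc hf hfin
    (by simp [hab])
  refine ⟨t₀, ht₀, w2_zero hab (fun t ht => (hd t ht).sub_const _) hL (hB t₀ ht₀) ?_⟩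
  rw [e]
  exact setAverage_sub_setAverage hfin f

theorem w2_half {g g' : ℝ → ℝ} (hd : ∀ t, HasDerivAt g (g' t) t) (hc : Continuous g') {a m : ℝ}
    (ha : g a = m) (hb : g (a + Real.pi) = m) :
    ∫ t in a..a + Real.pi, (g t - m) ^ 2 ≤ ∫ t in a..a + Real.pi, g' t ^ 2 := by
  have hab : a < a + Real.pi := by linarith [Real.pi_pos]
  have h := (W1 (f := fun t => g t - m) hab
    (fun t _ => ((hd t).sub_const m).continuousAt.continuousWithinAt)
    (fun t _ => (hd t).sub_const m) hc.continuousOn (w2_memc hc.continuousOn)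
    (sub_eq_zero.2 ha) (sub_eq_zero.2 hb)).1
  rw [add_sub_cancel_left, div_self Real.pi_pos.ne', one_pow, one_mul] at h
  rwa [w2_int hab.le, w2_int hab.le]

theorem W3 {g g' : ℝ → ℝ} (hd : ∀ t, HasDerivAt g (g' t) t) (hc : Continuous g')
    (hp : Function.Periodic g (2 * Real.pi)) : ∃ θ₀ : ℝ,
    ∫ t in Ioc (-Real.pi) Real.pi, (g t - g θ₀) ^ 2 ≤ ∫ t in Ioc (-Real.pi) Real.pi, g' t ^ 2 := by
  have hg : Continuous g := continuous_iff_continuousAt.2 fun t => (hd t).continuousAt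
  have hp' : Function.Periodic g' (2 * Real.pi) := fun t => by
    have h1 := (hd (t + 2 * Real.pi)).comp_add_const t (2 * Real.pi)
    rw [show (fun x => g (x + 2 * Real.pi)) = g from funext hp] at h1
    exact h1.unique (hd t)
  obtain ⟨θ, hθ⟩ : ∃ θ, g (θ + Real.pi) - g θ = 0 := by
    have hφ : Continuous fun θ => g (θ + Real.pi) - g θ := by fun_prop
    have e : g (Real.pi + Real.pi) = g 0 := by
      rw [← hp 0]
      congr 1
      ring
    rcases le_total (g Real.pi) (g 0) with h | h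
    · exact intermediate_value_univ 0 Real.pi hφ
        ⟨by simpa using h, by simpa [e] using h⟩
    · exact intermediate_value_univ Real.pi 0 hφ
        ⟨by simpa [e] using h, by simpa using h⟩
  refine ⟨θ, ?_⟩
  have e1 : θ + Real.pi + Real.pi = θ + 2 * Real.pi := by ring
  have h1 := w2_half hd hc (a := θ) rfl (sub_eq_zero.1 hθ)
  have h2 := w2_half hd hc (a := θ + Real.pi) (sub_eq_zero.1 hθ) (by rw [e1, hp])
  have c1 : Continuous fun t => (g t - g θ) ^ 2 := by fun_prop
  have c2 : Continuous fun t => g' t ^ 2 := by fun_prop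
  have h3 := add_le_add h1 h2
  rw [intervalIntegral.integral_add_adjacent_intervals (c1.intervalIntegrable _ _)
    (c1.intervalIntegrable _ _), intervalIntegral.integral_add_adjacent_intervals
    (c2.intervalIntegrable _ _) (c2.intervalIntegrable _ _), e1] at h3
  have p1 : Function.Periodic (fun t => (g t - g θ) ^ 2) (2 * Real.pi) := fun t => by
    simp only [hp t]
  have p2 : Function.Periodic (fun t => g' t ^ 2) (2 * Real.pi) := fun t => by
    simp only [hp' t]
  rw [p1.intervalIntegral_add_eq θ (-Real.pi), p2.intervalIntegral_add_eq θ (-Real.pi),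
    show -Real.pi + 2 * Real.pi = Real.pi by ring] at h3
  have hle : -Real.pi ≤ Real.pi := by linarith [Real.pi_pos]
  rwa [intervalIntegral.integral_of_le hle, intervalIntegral.integral_of_le hle] at h3

end Vale.Agent.P128
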