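import Vale.Agent.P128.TB.Kit
import Vale.Agent.P128.TB.W2
import Vale.Agent.P128.TB.ArcB
import Vale.Agent.P128.TB.ArcC

/-! P128 TB/ArcW (helper81): one variable facts on a single arc. -/

namespace Vale.Agent.P128

open MeasureTheory Set Metric Filter Topology
open scoped ENNReal

variable {Ω K : Set ℂ} {ε r s : ℝ} {wk : Prop} {u κ : ℂ → ℝ} {y : ℂ} {n : ℕ} {θ : ℕ → ℝ}

theorem amgm_int {S : Set ℝ} {a b : ℝ → ℝ} {L : ℝ} (s : ℝ) (hL : 0 < L)
    (ha : IntegrableOn (fun t => a t ^ 2) S) (hb : IntegrableOn (fun t => b t ^ 2) S) :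
    |∫ t in S, s * (a t * b t)| ≤
      (∫ t in S, a t ^ 2) / (2 * L) + L * s ^ 2 / 2 * ∫ t in S, b t ^ 2 := by
  rw [← integral_div, ← integral_const_mul, ← integral_add (ha.div_const _) (hb.const_mul _),
    ← Real.norm_eq_abs]
  refine norm_integral_le_of_norm_le ((ha.div_const _).add (hb.const_mul _))
    (ae_of_all _ fun t => ?_)
  rw [Real.norm_eq_abs, abs_le]
  have e : ∀ c : ℝ, c ^ 2 = 1 → a t ^ 2 / (2 * L) + L * s ^ 2 / 2 * b t ^ 2 -
      c * (s * (a t * b t)) = (a t - c * L * s * b t) ^ 2 / (2 * L) := fun c hc => by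
    field_simp
    linear_combination (-L ^ 2 * s ^ 2 * b t ^ 2) * hc
  have h1 := e 1 (by norm_num)
  have h2 := e (-1) (by norm_num)
  have h3 : 0 ≤ (a t - 1 * L * s * b t) ^ 2 / (2 * L) := by positivity
  have h4 : 0 ≤ (a t - -1 * L * s * b t) ^ 2 / (2 * L) := by positivity
  constructor <;> linarith

theorem AM0.cont_fd (h : AM0 Ω ε wk u K) : ContinuousOn (fderiv ℝ u) (Ω \ K) :=
  (smooth_of_holo (h.isOpen.sdiff h.closed) h.diff h.holo).2.2.1

theorem per_sq {g : ℝ → ℝ} (h : Function.Periodic g (2 * Real.pi)) :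
    Function.Periodic (fun t => g t ^ 2) (2 * Real.pi) := fun t => by simp only [h t]

theorem per_circ (F : ℂ → ℝ) (y : ℂ) (s : ℝ) :
    Function.Periodic (fun t => F (circleMap y s t)) (2 * Real.pi) := fun t => by
  simp only [periodic_circleMap y s t]

/-- The data on one arc. -/
structure ArcD (u : ℂ → ℝ) (y : ℂ) (s a b : ℝ) : Prop where
  lt : a < b
  der : ∀ t ∈ Ioo a b, HasDerivAt (fun t => u (circleMap y s t)) (s * ut u y s t) t
  cn : ContinuousOn (fun t => s * un u y s t) (Ioo a b)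
  mt : MemLp (fun t => s * ut u y s t) 2 (volume.restrict (Ioo a b))
  mn : MemLp (fun t => s * un u y s t) 2 (volume.restrict (Ioo a b))
  bdd : ∃ B, ∀ t ∈ Ioo a b, |u (circleMap y s t)| ≤ B
  wir : ∃ t₀ ∈ Ioo a b, ∫ t in Ioo a b, (u (circleMap y s t) - u (circleMap y s t₀)) ^ 2 ≤
    ((b - a) / Real.pi) ^ 2 * (s ^ 2 * ∫ t in Ioo a b, ut u y s t ^ 2)

theorem ArcD.mem {a b : ℝ} (h : ArcD u y s a b) (c : ℝ) :
    MemLp (fun t => u (circleMap y s t) - c) 2 (volume.restrict (Ioo a b)) := by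
  obtain ⟨B, hB⟩ := h.bdd
  have hc : ContinuousOn (fun t => u (circleMap y s t) - c) (Ioo a b) := fun t ht =>
    ((h.der t ht).continuousAt.sub continuousAt_const).continuousWithinAt
  refine MemLp.of_bound (hc.aestronglyMeasurable measurableSet_Ioo) (B + |c|)
    ((ae_restrict_mem measurableSet_Ioo).mono fun t ht => ?_)
  exact (abs_sub _ _).trans (add_le_add (hB t ht) le_rfl)

theorem Arcs.arcD (hA : Arcs K y s n θ) (h : AM0 Ω ε wk u K) (hs : 0 < s) (hS : sphere y s ⊆ Ω)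
    (hf : Dp u K y s < ∞) (j : ℕ) : ArcD u y s (θ j) (θ (j + 1)) := by
  have hlt : θ j < θ (j + 1) := hA.mono j.lt_succ_self
  have hm : ∀ t ∈ Ioo (θ j) (θ (j + 1)), circleMap y s t ∈ Ω \ K := fun t ht =>
    ⟨hS (circleMap_mem_sphere y hs.le t), hA.off j t ht⟩
  obtain ⟨i1, i2, -⟩ := Dp_int hs hf
  have j1 := (hA.int hs (per_sq (un_per u y s).1)).1.1 i1 j
  have j2 := (hA.int hs (per_sq (un_per u y s).2)).1.1 i2 j
  have m1 : MemLp (fun t => s * un u y s t) 2 (volume.restrict (Ioo (θ j) (θ (j + 1)))) :=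
    ((memLp_two_iff_integrable_sq (un_meas u y s).1.aestronglyMeasurable).2 j1).const_mul s
  have m2 : MemLp (fun t => s * ut u y s t) 2 (volume.restrict (Ioo (θ j) (θ (j + 1)))) :=
    ((memLp_two_iff_integrable_sq (un_meas u y s).2.aestronglyMeasurable).2 j2).const_mul s
  have hd := fun t ht => circ_der (h.diff _ (hm t ht))
  obtain ⟨c1, c2⟩ := un_cont h.cont_fd hm
  obtain ⟨w1, t₀, ht₀, w2⟩ := W2 hlt hd (continuousOn_const.mul c2) m2
  refine ⟨hlt, hd, continuousOn_const.mul c1, m2, m1,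
    ⟨√((θ (j + 1) - θ j) * ∫ t in Ioo (θ j) (θ (j + 1)), (s * ut u y s t) ^ 2) +
      |u (circleMap y s t₀)|, fun t ht => ?_⟩, t₀, ht₀, ?_⟩
  · have h1 := Real.abs_le_sqrt (w1 t ht t₀ ht₀)
    have h2 := abs_add_le (u (circleMap y s t) - u (circleMap y s t₀)) (u (circleMap y s t₀))
    rw [sub_add_cancel] at h2
    linarith
  · simpa only [mul_pow, integral_const_mul] using w2

theorem Arcs.bdd (hA : Arcs K y s n θ) (h : AM0 Ω ε wk u K) (hs : 0 < s) (hS : sphere y s ⊆ Ω)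
    (hf : Dp u K y s < ∞) : ∃ M, ∀ z ∈ sphere y s \ K, |u z| ≤ M := by
  choose B hB using fun j => (hA.arcD h hs hS hf j).bdd
  refine ⟨∑ j ∈ Finset.range n, |B j|, fun z hz => ?_⟩
  obtain ⟨j, hj, t, ht, rfl⟩ := hA.cover hs hz
  exact ((hB j t ht).trans (le_abs_self _)).trans
    (Finset.single_le_sum (f := fun j => |B j|) (fun j _ => abs_nonneg _) (Finset.mem_range.2 hj))

/-- Summation of inequalities over the arcs. -/
theorem Arcs.sum_le (hA : Arcs K y s n θ) (hs : 0 < s) {a b : ℝ → ℝ} {ω : ℝ} (hg : Gap K y s ω)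
    (pa : Function.Periodic a (2 * Real.pi)) (pb : Function.Periodic b (2 * Real.pi))
    (ia : IntegrableOn (fun t => a t ^ 2) (offK K y s))
    (ib : IntegrableOn (fun t => b t ^ 2) (offK K y s))
    (h : ∀ j < n, ∫ t in Ioo (θ j) (θ (j + 1)), a t ^ 2 ≤ ((θ (j + 1) - θ j) / Real.pi) ^ 2 *
      (s ^ 2 * ∫ t in Ioo (θ j) (θ (j + 1)), b t ^ 2)) :
    ∫ t in offK K y s, a t ^ 2 ≤ (ω / Real.pi) ^ 2 * (s ^ 2 * ∫ t in offK K y s, b t ^ 2) := by
  rw [(hA.int hs (per_sq pa)).2 ia, (hA.int hs (per_sq pb)).2 ib, Finset.mul_sum, Finset.mul_sum]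
  refine Finset.sum_le_sum fun j hj => (h j (Finset.mem_range.1 hj)).trans ?_
  have h1 : 0 ≤ ∫ t in Ioo (θ j) (θ (j + 1)), b t ^ 2 := integral_nonneg fun t => sq_nonneg _
  have h2 : 0 ≤ θ (j + 1) - θ j := sub_nonneg.2 (hA.mono j.lt_succ_self).le
  have h3 := hA.gap hg j
  gcongr

end Vale.Agent.P128
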