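import Vale.Agent.P128.TB.T4q
import Vale.Agent.P128.TB.ArcW

/-! P128 TB/DI (helper81): the differential inequalities. -/

namespace Vale.Agent.P128

open MeasureTheory Set Metric Filter Topology
open scoped ENNReal

theorem DI_core {K : Set ℂ} {ε s η L : ℝ} {u κ : ℂ → ℝ} {y : ℂ} (hη : 0 < η) (hL : 0 < L)
    (hL2 : L ≤ 2) (hε : 0 ≤ ε) (hs : 0 < s) (hεs : ε * √s ≤ 1) (hf : Dp u K y s < ∞)
    (hi : IntegrableOn (fun t => (u (circleMap y s t) - κ (circleMap y s t)) ^ 2) (offK K y s))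
    (hW : ∫ t in offK K y s, (u (circleMap y s t) - κ (circleMap y s t)) ^ 2 ≤
      L ^ 2 * (s ^ 2 * ∫ t in offK K y s, ut u y s t ^ 2)) (hov : OV ε u κ K y s) :
    ENNReal.ofReal (D u K y s) ≤ ENNReal.ofReal ((L / 2 + η) * s) * Dp u K y s +
      ENNReal.ofReal ((20 + 2 * Real.pi / η) * ε * s * √s) := by
  obtain ⟨i1, i2, e⟩ := Dp_int hs hf
  have h1 := amgm_int s hL hi i1
  obtain ⟨q, hq, rfl⟩ : ∃ q : ℝ, 0 < q ∧ s = q ^ 2 :=
    ⟨√s, Real.sqrt_pos.2 hs, (Real.sq_sqrt hs.le).symm⟩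
  rw [Real.sqrt_sq hq.le] at hεs ⊢
  have hv : volume (offK K y (q ^ 2)) ≤ ENNReal.ofReal (2 * Real.pi) := by
    refine (measure_mono fun t ht => ht.1).trans ?_
    rw [Real.volume_Ioc]
    exact ENNReal.ofReal_le_ofReal (by linarith)
  have hv' : volume (offK K y (q ^ 2)) ≠ ∞ := ne_top_of_le_ne_top ENNReal.ofReal_ne_top hv
  have hc : IntegrableOn (fun _ : ℝ => q ^ 3 / η) (offK K y (q ^ 2)) := integrableOn_const hv'
  have h2 : ∫ t in offK K y (q ^ 2),
      q ^ 2 * |u (circleMap y (q ^ 2) t) - κ (circleMap y (q ^ 2) t)| ≤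
      η * q / 4 * (∫ t in offK K y (q ^ 2),
        (u (circleMap y (q ^ 2) t) - κ (circleMap y (q ^ 2) t)) ^ 2) +
        2 * Real.pi * (q ^ 3 / η) := by
    refine (integral_mono_of_nonneg (ae_of_all _ fun t => by positivity)
      ((hi.const_mul (η * q / 4)).add hc) (ae_of_all _ fun t => ?_)).trans ?_
    · have e : ∀ w : ℝ, η * q / 4 * w ^ 2 + q ^ 3 / η - q ^ 2 * |w| =
          q / η * (η * |w| / 2 - q) ^ 2 := fun w => by
        rw [← sq_abs w]
        field_simp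
        ring
      have h3 := e (u (circleMap y (q ^ 2) t) - κ (circleMap y (q ^ 2) t))
      have h4 : 0 ≤ q / η * (η * |u (circleMap y (q ^ 2) t) - κ (circleMap y (q ^ 2) t)| / 2 -
        q) ^ 2 := by positivity
      simp only [Pi.add_apply]
      linarith
    · simp only [Pi.add_apply]
      rw [integral_add (hi.const_mul _) hc, integral_const_mul, setIntegral_const, smul_eq_mul]
      have h3 : volume.real (offK K y (q ^ 2)) ≤ 2 * Real.pi :=
        ENNReal.toReal_le_of_le_ofReal (by positivity) hv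
      gcongr
  unfold OV flux at hov
  rw [Real.sqrt_sq hq.le] at hov
  have h7 := (abs_le.1 h1).2
  unfold un at h7
  change _ ≤ _ + _ * ∫ t in offK K y (q ^ 2), un u y (q ^ 2) t ^ 2 at h7
  set N := ∫ t in offK K y (q ^ 2), un u y (q ^ 2) t ^ 2
  set T := ∫ t in offK K y (q ^ 2), ut u y (q ^ 2) t ^ 2
  set I := ∫ t in offK K y (q ^ 2), (u (circleMap y (q ^ 2) t) - κ (circleMap y (q ^ 2) t)) ^ 2
  have hN : 0 ≤ N := integral_nonneg fun t => sq_nonneg _
  have hT : 0 ≤ T := integral_nonneg fun t => sq_nonneg _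
  have hI : 0 ≤ I := integral_nonneg fun t => sq_nonneg _
  have h3 : I / (2 * L) ≤ L * (q ^ 2) ^ 2 / 2 * T := by
    rw [div_le_iff₀ (by positivity)]
    linarith
  have h4 : ε * (η * q / 4 * I) ≤ η * (q ^ 2) ^ 2 * T := by
    have h5 : L ^ 2 ≤ 4 := by nlinarith
    calc ε * (η * q / 4 * I) = ε * q * (η / 4 * I) := by ring
      _ ≤ 1 * (η / 4 * (4 * ((q ^ 2) ^ 2 * T))) := by
          gcongr
          exact hW.trans (by gcongr)
      _ = _ := by ring
  have h5 : D u K y (q ^ 2) ≤ (L / 2 + η) * q ^ 2 * (Dp u K y (q ^ 2)).toReal +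
      (20 + 2 * Real.pi / η) * ε * q ^ 2 * q := by
    have h6 := (abs_le.1 hov).2
    have h8 := mul_le_mul_of_nonneg_left h2 hε
    have h9 : 0 ≤ η * (q ^ 2) ^ 2 * N := by positivity
    have h10 : ε * (2 * Real.pi * (q ^ 3 / η)) = 2 * Real.pi / η * ε * q ^ 2 * q := by ring
    rw [e]
    nlinarith
  calc ENNReal.ofReal (D u K y (q ^ 2)) ≤ _ := ENNReal.ofReal_le_ofReal h5
    _ ≤ _ := ENNReal.ofReal_add_le
    _ = _ := by rw [ENNReal.ofReal_mul (by positivity), ENNReal.ofReal_toReal hf.ne]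

/-- Differential inequality on circles missing `K`. -/
theorem DI0 {η : ℝ} (hη : 0 < η) : ∃ C : ℝ, 0 < C ∧ ∀ (Ω : Set ℂ) (ε : ℝ) (wk : Prop)
    (u : ℂ → ℝ) (K : Set ℂ), AM0 Ω ε wk u K → ∀ (y : ℂ) (r : ℝ), 0 < r → closedBall y r ⊆ Ω →
    ∀ᵐ s ∂(volume.restrict (Ioo 0 r)), K ∩ sphere y s = ∅ →
      ENNReal.ofReal (D u K y s) ≤
        ENNReal.ofReal ((1 / 2 + η) * s) * Dp u K y s + ENNReal.ofReal (C * ε * s * √s) := by
  refine ⟨20 + 2 * Real.pi / η, by positivity, fun Ω ε wk u K h y r hr hB => ?_⟩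
  filter_upwards [T4_all (κ := fun _ => 0) h hr hB fun z _ => Eventually.of_forall fun _ => rfl,
    ae_restrict_mem measurableSet_Ioo] with s ⟨hf, h4⟩ hs hK
  have hS : sphere y s ⊆ Ω \ K := fun z hz =>
    ⟨hB (sphere_subset_closedBall.trans (closedBall_subset_closedBall hs.2.le) hz),
      fun hz' => (hK ▸ (⟨hz', hz⟩ : z ∈ K ∩ sphere y s) : z ∈ (∅ : Set ℂ))⟩
  have hm := fun t => hS (circleMap_mem_sphere y hs.1.le t)
  have hd := fun t => circ_der (h.diff _ (hm t))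
  have hc : Continuous (ut u y s) :=
    continuousOn_univ.1 (un_cont h.cont_fd fun t (_ : t ∈ univ) => hm t).2
  obtain ⟨t₀, ht₀⟩ := W3 hd (continuous_const.mul hc) (per_circ u y s)
  have e : offK K y s = Ioc (-Real.pi) Real.pi := by
    ext t
    exact and_iff_left (hm t).2
  obtain ⟨M, hM⟩ := (isCompact_sphere y s).exists_bound_of_continuousOn
    (f := u) fun z hz => (h.diff z (hS hz)).continuousAt.continuousWithinAt
  have hg : Continuous fun t => (u (circleMap y s t) - u (circleMap y s t₀)) ^ 2 :=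
    ((continuous_iff_continuousAt.2 fun t => (hd t).continuousAt).sub continuous_const).pow 2
  refine DI_core (κ := fun _ => u (circleMap y s t₀)) hη one_pos one_le_two h.eps hs.1
    (h.small y s hs.1 ((closedBall_subset_closedBall hs.2.le).trans hB)) hf ?_ ?_
    (h4 ((finite_singleton 0).subset (image_subset_iff.2 fun _ _ => rfl))
      ⟨M, fun z hz => hM z hz.1⟩ (fun _ => u (circleMap y s t₀)) fun _ => Or.inr ⟨_, hm t₀, le_rfl⟩)
  · rw [e]
    exact hg.integrableOn_Ioc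
  · rw [e]
    simpa only [mul_pow, integral_const_mul, one_pow, one_mul] using ht₀

/-- Differential inequality on circles whose arcs are separated and have angle at most `ω`. -/
theorem DI1 {η : ℝ} (hη : 0 < η) : ∃ C : ℝ, 0 < C ∧ ∀ (Ω : Set ℂ) (ε : ℝ) (wk : Prop)
    (u : ℂ → ℝ) (K : Set ℂ), AM0 Ω ε wk u K → ∀ (y : ℂ) (r : ℝ), 0 < r → closedBall y r ⊆ Ω →
    ∀ κ : ℂ → ℝ, LC (ball y r \ K) κ →
    ∀ᵐ s ∂(volume.restrict (Ioo 0 r)), ∀ ω : ℝ, 0 < ω → ω ≤ 2 * Real.pi →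
      (K ∩ sphere y s).Finite → Gap K y s ω → SepArcs K κ y s →
      ENNReal.ofReal (D u K y s) ≤
        ENNReal.ofReal ((ω / (2 * Real.pi) + η) * s) * Dp u K y s +
          ENNReal.ofReal (C * ε * s * √s) := by
  classical
  refine ⟨20 + 2 * Real.pi / η, by positivity, fun Ω ε wk u K h y r hr hB κ hκ => ?_⟩
  filter_upwards [T4_all h hr hB hκ, ae_restrict_mem measurableSet_Ioo] with s ⟨hf, h4⟩ hs ω hω hω2
    hfin hg hsep
  obtain ⟨n, θ, hA⟩ := exists_arcs hs.1 hfin (gap_nonempty hs.1 hg)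
  have hS' : sphere y s ⊆ ball y r := sphere_subset_ball hs.2
  have hS : sphere y s ⊆ Ω := hS'.trans (ball_subset_closedBall.trans hB)
  have hD := hA.arcD h hs.1 hS hf
  choose t ht hw using fun j => (hD j).wir
  have hm : ∀ j, ∀ x ∈ Ioo (θ j) (θ (j + 1)), circleMap y s x ∈ sphere y s \ K := fun j x hx =>
    ⟨circleMap_mem_sphere y hs.1.le x, hA.off j x hx⟩
  let f : ℝ → ℝ := fun x => if hx : ∃ j, j < n ∧ κ (circleMap y s (t j)) = x then
    u (circleMap y s (t hx.choose)) else 0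
  have hc : ∀ j, ∀ x ∈ Ioo (θ j) (θ (j + 1)), κ (circleMap y s x) = κ (circleMap y s (t j)) :=
    fun j x hx => hA.const hs.1 hκ hS' j hx (ht j)
  have hf1 : ∀ j < n, f (κ (circleMap y s (t j))) = u (circleMap y s (t j)) := by
    intro j hj
    have hx : ∃ i, i < n ∧ κ (circleMap y s (t i)) = κ (circleMap y s (t j)) := ⟨j, hj, rfl⟩
    simp only [f, dif_pos hx]
    rw [hA.sep hs.1 hx.choose_spec.1 hj (ht _) (ht j)
      (hsep _ (hm _ _ (ht _)) _ (hm _ _ (ht j)) hx.choose_spec.2)]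
  have pw := per_circ (fun z => u z - f (κ z)) y s
  have hi : IntegrableOn (fun x => (u (circleMap y s x) - f (κ (circleMap y s x))) ^ 2)
      (offK K y s) := by
    refine (hA.int hs.1 (per_sq pw)).1.2 fun j => ?_
    refine IntegrableOn.congr_fun ((hD j).mem (f (κ (circleMap y s (t j))))).integrable_sq
      (fun x hx => ?_) measurableSet_Ioo
    simp only [hc j x hx]
  have e : ω / (2 * Real.pi) = ω / Real.pi / 2 := by rw [div_div, mul_comm]
  rw [e]
  refine DI_core (κ := fun z => f (κ z)) hη (by positivity)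
    ((div_le_iff₀ Real.pi_pos).2 hω2) h.eps hs.1
    (h.small y s hs.1 ((closedBall_subset_closedBall hs.2.le).trans hB)) hf hi
    (hA.sum_le hs.1 hg pw (un_per u y s).2 hi (Dp_int hs.1 hf).2.1 fun j hj => ?_)
    (h4 ?_ (hA.bdd h hs.1 hS hf) f fun x => ?_)
  · refine le_of_eq_of_le (setIntegral_congr_fun measurableSet_Ioo fun x hx => ?_) (hw j)
    simp only [hc j x hx, hf1 j hj]
  · refine ((finite_Iio n).image fun j => κ (circleMap y s (t j))).subset ?_
    rintro _ ⟨z, hz, rfl⟩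
    obtain ⟨j, hj, x, hx, rfl⟩ := hA.cover hs.1 hz
    exact ⟨j, hj, (hc j x hx).symm⟩
  · simp only [f]
    split_ifs with hx
    · exact Or.inr ⟨_, ⟨hS (hm _ _ (ht _)).1, (hm _ _ (ht _)).2⟩, le_rfl⟩
    · exact Or.inl rfl

/-- The case of one point on the circle. -/
theorem DI1_one {η : ℝ} (hη : 0 < η) : ∃ C : ℝ, 0 < C ∧ ∀ (Ω : Set ℂ) (ε : ℝ) (wk : Prop)
    (u : ℂ → ℝ) (K : Set ℂ), AM0 Ω ε wk u K → ∀ (y : ℂ) (r : ℝ), 0 < r → closedBall y r ⊆ Ω →
    ∀ᵐ s ∂(volume.restrict (Ioo 0 r)), (K ∩ sphere y s).encard = 1 →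
      ENNReal.ofReal (D u K y s) ≤
        ENNReal.ofReal ((1 + η) * s) * Dp u K y s + ENNReal.ofReal (C * ε * s * √s) := by
  obtain ⟨C, hC, h1⟩ := DI1 hη
  refine ⟨C, hC, fun Ω ε wk u K h y r hr hB => ?_⟩
  filter_upwards [h1 Ω ε wk u K h y r hr hB (fun _ => 0)
    fun z _ => Eventually.of_forall fun _ => rfl, ae_restrict_mem measurableSet_Ioo] with s h2 hs h3
  obtain ⟨h4, h5, h6⟩ := arc_one hs.1 h3
  have h7 := h2 _ Real.two_pi_pos le_rfl h4 h5 h6
  rwa [div_self Real.two_pi_pos.ne'] at h7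

end Vale.Agent.P128
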