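import Vale.Agent.P128.TB.T4c
import Vale.Agent.P128.TB.ArcW

/-! P128 TB/DIZ (helper81): zero flux. -/

namespace Vale.Agent.P128

open MeasureTheory Set Metric Filter Topology
open scoped ENNReal

theorem diz_cont {u v : ℂ → ℝ} {K : Set ℂ} (hv : Conj u K v) : Continuous v := by
  refine continuous_iff_continuousAt.2 fun z => ?_
  rw [ContinuousAt, tendsto_iff_dist_tendsto_zero]
  have h1 : Tendsto (fun w => 1000 * √(dist w z)) (𝓝 z) (𝓝 (1000 * √(dist z z))) :=
    Continuous.tendsto (by fun_prop) z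
  rw [dist_self, Real.sqrt_zero, mul_zero] at h1
  exact squeeze_zero (fun _ => dist_nonneg) (fun w => hv.holder w z) h1

theorem diz_un {u v : ℂ → ℝ} {K : Set ℂ} (hv : Conj u K v) {y : ℂ} {s t : ℝ}
    (ht : circleMap y s t ∉ K) : un v y s t = -ut u y s t ∧ ut v y s t = un u y s t := by
  unfold un ut
  rw [(hv.deriv _ ht).fderiv, ← map_neg]
  simp only [ContinuousLinearMap.comp_apply, ContinuousLinearMap.mul_apply']
  constructor
  · congr 1
    ring
  · congr 1
    linear_combination (-circleMap 0 1 t) * Complex.I_mul_I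

theorem diz_arc {u v : ℂ → ℝ} {K : Set ℂ} (hv : Conj u K v) {y : ℂ} {s a b : ℝ}
    (h : ArcD u y s a b) (ho : ∀ t ∈ Ioo a b, circleMap y s t ∉ K)
    (ha : v (circleMap y s a) = 0) (hb : v (circleMap y s b) = 0) :
    IntegrableOn (fun t => s * ((u (circleMap y s t) - 0) * un u y s t)) (Ioo a b) ∧
    IntegrableOn (fun t => s * (v (circleMap y s t) * -ut u y s t)) (Ioo a b) ∧
    IntegrableOn (fun t => v (circleMap y s t) ^ 2) (Ioo a b) ∧
    ∫ t in Ioo a b, s * ((u (circleMap y s t) - 0) * un u y s t) =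
      ∫ t in Ioo a b, s * (v (circleMap y s t) * -ut u y s t) ∧
    ∫ t in Ioo a b, v (circleMap y s t) ^ 2 ≤
      ((b - a) / Real.pi) ^ 2 * (s ^ 2 * ∫ t in Ioo a b, un u y s t ^ 2) := by
  have hc : Continuous fun t => v (circleMap y s t) :=
    (diz_cont hv).comp (continuous_circleMap y s)
  have hd : ∀ t ∈ Ioo a b, HasDerivAt (fun t => v (circleMap y s t)) (s * un u y s t) t :=
    fun t ht => by
      rw [← (diz_un hv (ho t ht)).2]
      exact circ_der (hv.deriv _ (ho t ht)).differentiableAt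
  have mv : MemLp (fun t => v (circleMap y s t)) 2 (volume.restrict (Ioo a b)) :=
    w2_memc hc.continuousOn
  have i1 : IntegrableOn (fun t => s * ((u (circleMap y s t) - 0) * un u y s t)) (Ioo a b) :=
    ((h.mem 0).integrable_mul h.mn).congr (ae_of_all _ fun t => by
      simp only [Pi.mul_apply]
      ring)
  have i2 : IntegrableOn (fun t => s * (v (circleMap y s t) * -ut u y s t)) (Ioo a b) :=
    (mv.integrable_mul h.mt).neg.congr (ae_of_all _ fun t => by
      simp only [Pi.mul_apply, Pi.neg_apply]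
      ring)
  refine ⟨i1, i2, mv.integrable_sq, ?_, ?_⟩
  · obtain ⟨B, hB⟩ := h.bdd
    have hl : ∀ (c : ℝ) (l : Filter ℝ), l ≤ 𝓝 c → v (circleMap y s c) = 0 →
        (∀ᶠ t in l, t ∈ Ioo a b) →
        Tendsto (fun t => u (circleMap y s t) * v (circleMap y s t)) l (𝓝 0) := by
      intro c l hl hc0 hm
      refine bdd_le_mul_tendsto_zero' B (hm.mono fun t ht => hB t ht) ?_
      rw [← hc0]
      exact (hc.tendsto c).mono_left hl
    have h1 := intervalIntegral.integral_eq_sub_of_hasDerivAt_of_tendsto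
      (f := fun t => u (circleMap y s t) * v (circleMap y s t))
      (f' := fun t => s * ((u (circleMap y s t) - 0) * un u y s t) -
        s * (v (circleMap y s t) * -ut u y s t)) h.lt
      (fun t ht => ((h.der t ht).mul (hd t ht)).congr_deriv (by ring))
      ((intervalIntegrable_iff_integrableOn_Ioo_of_le h.lt.le).2 (i1.sub i2))
      (hl a _ nhdsWithin_le_nhds ha (Ioo_mem_nhdsGT h.lt))
      (hl b _ nhdsWithin_le_nhds hb (Ioo_mem_nhdsLT h.lt))
    rw [w1_ioo h.lt.le, integral_sub i1 i2] at h1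
    linarith
  · simpa only [mul_pow, integral_const_mul] using
      (W1 h.lt hc.continuousOn hd h.cn h.mn ha hb).1

theorem diz_fin {Ω K : Set ℂ} {ε r : ℝ} {wk : Prop} {u : ℂ → ℝ} {y : ℂ} (h : AM0 Ω ε wk u K)
    (hr : 0 < r) (hB : closedBall y r ⊆ Ω) :
    ∀ᵐ s ∂(volume.restrict (Ioo 0 r)), (K ∩ sphere y s).Finite := by
  obtain ⟨hm, hI⟩ := eilenberg_sphere h.closed y
  have h1 := (hI (Ioo 0 r) measurableSet_Ioo).trans
    (measure_mono (t := K ∩ ball y r) fun z hz => ⟨hz.1, hz.2.2⟩)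
  rw [(h.upper_real hr hB).2.2.2.1] at h1
  filter_upwards [ae_lt_top hm (h1.trans_lt ENNReal.ofReal_lt_top).ne] with s hs
  exact encard_lt_top_iff.1 (ENat.toENNReal_lt_top.1 hs)

/-- Zero flux: the energy is minus the boundary integral of `v u_τ`, and Bonnet's inequality. -/
theorem DIZ {c : ℝ} {u v : ℂ → ℝ} {K : Set ℂ} (h : GM c u K) (hv : Conj u K v)
    (h0 : ∀ z ∈ K, v z = 0) (y : ℂ) :
    ∀ᵐ s ∂(volume.restrict (Ioi 0)), Dp u K y s < ∞ ∧ (K ∩ sphere y s).Finite ∧
      ((K ∩ sphere y s).Nonempty →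
        D u K y s = ∫ θ in offK K y s, s * (v (circleMap y s θ) *
          fderiv ℝ v (circleMap y s θ) (circleMap 0 1 θ)) ∧
        ∀ ω : ℝ, 0 < ω → ω ≤ 2 * Real.pi → Gap K y s ω →
          D u K y s ≤ ω / (2 * Real.pi) * s * (Dp u K y s).toReal) := by
  have hU : Ioi (0 : ℝ) = ⋃ n : ℕ, Ioo 0 ((n : ℝ) + 1) := by
    refine Subset.antisymm (fun x hx => ?_) (iUnion_subset fun n => Ioo_subset_Ioi_self)
    obtain ⟨n, hn⟩ := exists_nat_gt x
    exact mem_iUnion.2 ⟨n, hx, by linarith⟩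
  rw [hU, ae_restrict_iUnion_iff]
  intro N
  have hr : (0 : ℝ) < N + 1 := by positivity
  filter_upwards [T4 (κ := fun _ => 0) (y := y) h.toAM0 hr (subset_univ _)
    (fun z _ => Eventually.of_forall fun _ => rfl) fun _ => Or.inl rfl,
    diz_fin (y := y) h.toAM0 hr (subset_univ _), ae_restrict_mem measurableSet_Ioo]
    with s ⟨hf, h4⟩ hfin hs
  refine ⟨hf, hfin, fun hne => ?_⟩
  obtain ⟨n, θ, hA⟩ := exists_arcs hs.1 hfin hne
  have hD := fun j => diz_arc hv (hA.arcD h.toAM0 hs.1 (subset_univ _) hf j) (hA.off j)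
    (h0 _ (hA.mem j)) (h0 _ (hA.mem (j + 1)))
  obtain ⟨M, hM⟩ := hA.bdd h.toAM0 hs.1 (subset_univ _) hf
  have h5 := h4 ⟨M, fun z hz => by simpa only [sub_zero] using hM z hz⟩
  simp only [mul_zero, zero_mul, add_zero, abs_nonpos_iff, sub_eq_zero] at h5
  obtain ⟨p1, p2⟩ := un_per u y s
  have q1 : Function.Periodic (fun t => s * ((u (circleMap y s t) - 0) * un u y s t))
      (2 * Real.pi) := fun t => by simp only [periodic_circleMap y s t, p1 t]
  have q2 : Function.Periodic (fun t => s * (v (circleMap y s t) * -ut u y s t))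
      (2 * Real.pi) := fun t => by simp only [periodic_circleMap y s t, p2 t]
  have h6 : D u K y s = ∫ t in offK K y s, s * (v (circleMap y s t) * -ut u y s t) := by
    rw [h5, (hA.int hs.1 q2).2 ((hA.int hs.1 q2).1.2 fun j => (hD j).2.1)]
    refine ((hA.int hs.1 q1).2 ((hA.int hs.1 q1).1.2 fun j => (hD j).1)).trans ?_
    exact Finset.sum_congr rfl fun j _ => (hD j).2.2.2.1
  refine ⟨h6.trans (setIntegral_congr_fun (measurableSet_offK h.closed y s) fun t ht => ?_),
    fun ω hω _ hg => ?_⟩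
  · simp only [← (diz_un hv ht.2).1, un]
  · obtain ⟨i1, i2, e⟩ := Dp_int hs.1 hf
    have pv := per_circ v y s
    have iv := (hA.int hs.1 (per_sq pv)).1.2 fun j => (hD j).2.2.1
    have h7 := hA.sum_le hs.1 hg pv p1 iv i1 fun j _ => (hD j).2.2.2.2
    have hL : 0 < ω / Real.pi := by positivity
    have h8 := (abs_le.1 (amgm_int (b := fun t => -ut u y s t) s hL iv
      (by simpa only [neg_sq] using i2))).2
    simp only [neg_sq] at h8
    have h9 : (∫ t in offK K y s, v (circleMap y s t) ^ 2) / (2 * (ω / Real.pi)) ≤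
        ω / Real.pi * s ^ 2 / 2 * ∫ t in offK K y s, un u y s t ^ 2 := by
      rw [div_le_iff₀ (by positivity)]
      linarith
    have e2 : ω / (2 * Real.pi) = ω / Real.pi / 2 := by rw [div_div, mul_comm]
    rw [h6, e, e2]
    linarith

end Vale.Agent.P128
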