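import Vale.Agent.P128.Defs2
import Vale.Agent.P128.TA2.Main
import Vale.Agent.P128.TA3.Main
import Vale.Agent.P128.TB.DI
import Vale.Agent.P128.TB.DIZ

/-! P128 block TB: Wirtinger inequalities, differential inequalities, decay. The statements (unchanged) are in the
files of this folder: W1, W2, ArcB (arcs), T4c (T4), DI (DI0, DI1, DI1_one), DIZ, T5 (T5, T5_exact, Dp_of_linear), Gron (good_radius). -/
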