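import Vale.Agent.P128.TB.Defs

/-! P128 TB/ArcA (TASK): ordering the points on the circle. Helper names start with `aa_`.
`Θ = {t ∈ Ioc (-π) π | circleMap y s t ∈ K}` is mapped bijectively onto `K ∩ sphere y s` (`injOn_circleMap_of_abs_sub_le`-type lemmas, `Complex.arg`, `periodic_circleMap`, `range_circleMap`), so it is finite with `n` elements.
`φ = Finset.orderEmbOfFin`, `θ j = φ (j % n) + 2 π (j / n)`; `strictMono_nat_of_lt_succ` with the two cases `j % n + 1 < n` and `j % n + 1 = n`.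
(Alternative: the set of all angles `{t | -π < t ∧ circleMap y s t ∈ K}` is periodic and locally finite; enumerate it increasingly.) -/

namespace Vale.Agent.P128

open MeasureTheory Set Metric Filter Topology
open scoped ENNReal

theorem aa_enum {T : Set ℝ} (hT : T.Finite) : ∃ (n : ℕ) (ψ : ℕ → ℝ), T.encard = n ∧
    (∀ i < n, ψ i ∈ T) ∧ (∀ t ∈ T, ∃ i < n, ψ i = t) ∧
    ∀ i < n, ∀ k < n, ψ i < ψ k ↔ i < k := by
  classical
  let φ := hT.toFinset.orderEmbOfFin rfl
  refine ⟨hT.toFinset.card, fun i => if h : i < hT.toFinset.card then φ ⟨i, h⟩ else 0,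
    hT.encard_eq_coe_toFinset_card, fun i hi => ?_, fun t ht => ?_, fun i hi k hk => ?_⟩
  · simp only [hi, dif_pos]
    exact hT.mem_toFinset.1 (Finset.orderEmbOfFin_mem _ _ _)
  · have h : t ∈ range φ := by
      rw [Finset.range_orderEmbOfFin]
      exact hT.mem_toFinset.2 ht
    obtain ⟨i, hi⟩ := h
    exact ⟨i, i.2, by simp only [i.2, dif_pos]; exact hi⟩
  · simp only [hi, hk, dif_pos]
    exact φ.lt_iff_lt

theorem exists_arcs {K : Set ℂ} {y : ℂ} {s : ℝ} (hs : 0 < s) (hfin : (K ∩ sphere y s).Finite)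
    (hne : (K ∩ sphere y s).Nonempty) : ∃ n θ, Arcs K y s n θ := by
  set T : Set ℝ := {t | t ∈ Ioc (-Real.pi) Real.pi ∧ circleMap y s t ∈ K} with hTdef
  have hinj : InjOn (circleMap y s) T := by
    refine (injOn_circleMap_of_abs_sub_le (a := -Real.pi) (b := Real.pi) hs.ne' ?_).mono ?_
    · rw [abs_sub_comm, abs_of_nonneg (by linarith [Real.pi_pos])]
      linarith
    · rw [uIoc_of_le (by linarith [Real.pi_pos])]
      exact fun t ht => ht.1
  have him : circleMap y s '' T = K ∩ sphere y s := by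
    ext z
    constructor
    · rintro ⟨t, ht, rfl⟩
      exact ⟨ht.2, circleMap_mem_sphere y hs.le t⟩
    · rintro ⟨hz, hz'⟩
      have e : circleMap y s (Complex.arg (z - y)) = z := by
        rw [mem_sphere, dist_eq_norm] at hz'
        simp only [circleMap]
        rw [← hz', Complex.norm_mul_exp_arg_mul_I]
        ring
      exact ⟨Complex.arg (z - y), ⟨Complex.arg_mem_Ioc _, by rwa [e]⟩, e⟩
  have hT : T.Finite := Finite.of_finite_image (by rwa [him]) hinj
  obtain ⟨n, ψ, hcard, hmem, hsurj, hlt⟩ := aa_enum hT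
  have hn : 0 < n := by
    rw [← him] at hne
    obtain ⟨t, ht⟩ := hne.of_image
    obtain ⟨i, hi, -⟩ := hsurj t ht
    omega
  have hper : ∀ (t : ℝ) (k : ℕ), circleMap y s (t + 2 * Real.pi * k) = circleMap y s t := by
    intro t k
    rw [mul_comm]
    exact (periodic_circleMap y s).nat_mul k t
  have hstep : ∀ j : ℕ, (j % n + 1 < n ∧ (j + 1) % n = j % n + 1 ∧ (j + 1) / n = j / n) ∨
      (j % n + 1 = n ∧ (j + 1) % n = 0 ∧ (j + 1) / n = j / n + 1) := by
    intro j
    have h1 := Nat.mod_lt j hn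
    have h2 : j + 1 = (j % n + 1) + n * (j / n) := by
      have := Nat.mod_add_div j n
      omega
    rcases lt_or_eq_of_le (Nat.succ_le_of_lt h1) with h | h
    · refine Or.inl ⟨h, ?_, ?_⟩
      · rw [h2, Nat.add_mul_mod_self_left, Nat.mod_eq_of_lt h]
      · rw [h2, Nat.add_mul_div_left _ _ hn, Nat.div_eq_of_lt h, zero_add]
    · have h' : j % n + 1 = n := h
      refine Or.inr ⟨h', ?_, ?_⟩
      · rw [h2, Nat.add_mul_mod_self_left, h', Nat.mod_self]
      · rw [h2, Nat.add_mul_div_left _ _ hn, h', Nat.div_self hn, add_comm]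
  refine ⟨n, fun j => ψ (j % n) + 2 * Real.pi * (j / n : ℕ), hn, ?_, ?_, ?_, ?_, ?_, ?_⟩
  · rw [← him, hinj.encard_image, hcard]
  · refine strictMono_nat_of_lt_succ fun j => ?_
    have h1 := Nat.mod_lt j hn
    rcases hstep j with ⟨a, b, c⟩ | ⟨a, b, c⟩
    · simp only [b, c]
      have := (hlt _ h1 _ a).2 (Nat.lt_succ_self _)
      linarith
    · simp only [b, c]
      have k1 := (hmem _ h1).1.2
      have k2 := (hmem _ hn).1.1
      push_cast
      linarith
  · intro j
    simp only [Nat.add_mod_right, Nat.add_div_right j hn]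
    push_cast
    ring
  · intro j
    simp only [hper]
    exact (hmem _ (Nat.mod_lt j hn)).2
  · intro j t ht hK
    have h1 := Nat.mod_lt j hn
    have k1 := (hmem _ h1).1
    have hK' : circleMap y s (t - 2 * Real.pi * (j / n : ℕ)) ∈ K := by
      rw [← hper _ (j / n), sub_add_cancel]
      exact hK
    obtain ⟨ht1, ht2⟩ := ht
    rcases hstep j with ⟨a, b, c⟩ | ⟨a, b, c⟩
    · simp only [b, c] at ht2
      have k2 := (hmem _ a).1
      obtain ⟨i, hi, e⟩ := hsurj (t - 2 * Real.pi * (j / n : ℕ))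
        ⟨⟨by linarith [k1.1], by linarith [k2.2]⟩, hK'⟩
      have l1 := (hlt _ h1 _ hi).1 (by linarith)
      have l2 := (hlt _ hi _ a).1 (by linarith)
      omega
    · simp only [b, c] at ht2
      push_cast at ht2
      have k2 := (hmem _ hn).1
      rcases le_or_gt (t - 2 * Real.pi * (j / n : ℕ)) Real.pi with h | h
      · obtain ⟨i, hi, e⟩ := hsurj (t - 2 * Real.pi * (j / n : ℕ))
          ⟨⟨by linarith [k1.1], h⟩, hK'⟩
        have l1 := (hlt _ h1 _ hi).1 (by linarith)
        omega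
      · obtain ⟨i, hi, e⟩ := hsurj (t - 2 * Real.pi * (j / n : ℕ) - 2 * Real.pi)
          ⟨⟨by linarith, by linarith [k2.2]⟩, by rwa [(periodic_circleMap y s).sub_eq]⟩
        have l1 := (hlt _ hi _ hn).1 (by linarith)
        omega
  · rw [← him]
    ext z
    constructor
    · rintro ⟨t, ht, rfl⟩
      obtain ⟨i, hi, rfl⟩ := hsurj t ht
      refine ⟨i, hi, ?_⟩
      simp only [hper, Nat.mod_eq_of_lt hi]
    · rintro ⟨i, hi, rfl⟩
      refine ⟨ψ (i % n), hmem _ (Nat.mod_lt i hn), ?_⟩
      simp only [hper]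

end Vale.Agent.P128
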