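import Vale.Agent.P128.Defs2

/-! P128 TB/Defs: notions used inside block TB (no task; owner helper81). -/

namespace Vale.Agent.P128

open MeasureTheory Set Metric Filter Topology
open scoped ENNReal

noncomputable section

/-- Open annulus. -/
def tbA (y : ℂ) (a b : ℝ) : Set ℂ := {z | dist z y ∈ Ioo a b}

/-- Unit radial vector. -/
def tbN (y z : ℂ) : ℂ := (dist z y)⁻¹ • (z - y)

/-- Normal derivative on the circle. -/
def un (u : ℂ → ℝ) (y : ℂ) (s θ : ℝ) : ℝ := fderiv ℝ u (circleMap y s θ) (circleMap 0 1 θ)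

/-- Tangential derivative on the circle. -/
def ut (u : ℂ → ℝ) (y : ℂ) (s θ : ℝ) : ℝ :=
  fderiv ℝ u (circleMap y s θ) (circleMap 0 1 θ * Complex.I)

/-- A `C¹` truncation at height `M`. -/
structure Trunc (M : ℝ) (T T' : ℝ → ℝ) : Prop where
  der : ∀ x, HasDerivAt T (T' x) x
  cont : Continuous T'
  mem : ∀ x, T' x ∈ Icc (0 : ℝ) 1
  le : ∀ x, |T x| ≤ |x|
  bdd : ∀ x, |T x| ≤ 2 * M
  eq : ∀ x, |x| ≤ M → T x = x ∧ T' x = 1

/-- The ramp: `1` left of `s - δ`, `0` right of `s`. -/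
def ramp (s δ t : ℝ) : ℝ := max 0 (min 1 ((s - t) / δ))

/-- The test function. -/
def tbPsi (T : ℝ → ℝ) (u κ : ℂ → ℝ) (y : ℂ) (s δ : ℝ) (z : ℂ) : ℝ :=
  T (u z - κ z) * ramp s δ (dist z y)

/-- The angles of the points of `K` on the circle. -/
structure Arcs (K : Set ℂ) (y : ℂ) (s : ℝ) (n : ℕ) (θ : ℕ → ℝ) : Prop where
  pos : 0 < n
  card : (K ∩ sphere y s).encard = n
  mono : StrictMono θ
  per : ∀ j, θ (j + n) = θ j + 2 * Real.pi
  mem : ∀ j, circleMap y s (θ j) ∈ K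
  off : ∀ j, ∀ t ∈ Ioo (θ j) (θ (j + 1)), circleMap y s t ∉ K
  eq : K ∩ sphere y s = (fun j => circleMap y s (θ j)) '' Iio n

/-- The conclusion of the outer variation on one circle. -/
def OV (ε : ℝ) (u κ : ℂ → ℝ) (K : Set ℂ) (y : ℂ) (s : ℝ) : Prop :=
  |D u K y s - flux u κ K y s| ≤ 20 * ε * s * √s +
    ε * ∫ θ in offK K y s, s * |u (circleMap y s θ) - κ (circleMap y s θ)|

end

end Vale.Agent.P128
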