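import Mathlib

/-! P128 TB/Gron (TASK): Gronwall for primitives, good radii. Helper names start with `gr_`.
`ac_comp`: unfold (`squeeze_zero'` as in `AbsolutelyContinuousOnInterval.smul`, or `absolutelyContinuousOnInterval_iff`). `tb_gron`: `H s = (D₀ + ∫ p) exp (-∫ q)` is absolutely continuous
(`IntervalIntegrable.absolutelyContinuousOnInterval_intervalIntegral`, `ac_comp` with `exp` Lipschitz on a bounded interval, `fun_mul`), `IntervalIntegrable.ae_hasDerivAt_integral` gives `deriv H = (p - q (D₀ + ∫ p)) exp (..) ≥ 0` a.e.,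
`AbsolutelyContinuousOnInterval.integral_deriv_eq_sub`. `good_radius`: otherwise `F > ofReal (M / β)` a.e. on `Ioo a b ∩ G`; `setLIntegral_strict_mono` / `lintegral_strict_mono`. -/

namespace Vale.Agent.P128

open MeasureTheory Set Metric Filter Topology
open scoped ENNReal

theorem ac_comp {f g : ℝ → ℝ} {a b : ℝ} {S : Set ℝ} {L : NNReal} (hg : LipschitzOnWith L g S)
    (hf : AbsolutelyContinuousOnInterval f a b) (hm : MapsTo f (uIcc a b) S) :
    AbsolutelyContinuousOnInterval (fun t => g (f t)) a b := by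
  unfold AbsolutelyContinuousOnInterval at hf ⊢
  refine squeeze_zero' (Eventually.of_forall fun _ => Finset.sum_nonneg fun _ _ => dist_nonneg) ?_
    (by simpa using hf.const_mul (L : ℝ))
  rw [eventually_inf_principal]
  refine Eventually.of_forall fun E hE => ?_
  rw [Finset.mul_sum]
  exact Finset.sum_le_sum fun i hi => hg.dist_le_mul _ (hm (hE.1 i hi).1) _ (hm (hE.1 i hi).2)

theorem tb_gron {p q : ℝ → ℝ} {a b D₀ : ℝ} (hab : a ≤ b) (hp : IntervalIntegrable p volume a b)
    (hq : IntervalIntegrable q volume a b)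
    (h : ∀ᵐ s ∂(volume.restrict (Ioo a b)), q s * (D₀ + ∫ t in a..s, p t) ≤ p s) :
    D₀ * Real.exp (∫ s in a..b, q s) ≤ D₀ + ∫ t in a..b, p t := by
  have ha : a ∈ uIcc a b := left_mem_uIcc
  have acp := hp.absolutelyContinuousOnInterval_intervalIntegral ha
  have acq := (hq.absolutelyContinuousOnInterval_intervalIntegral ha).fun_neg
  obtain ⟨C, hC⟩ := acq.exists_bound
  obtain ⟨L, hL⟩ := (Real.contDiff_exp (n := 1)).contDiffOn.exists_lipschitzOnWith (s := Icc (-C) C)
    one_ne_zero (convex_Icc _ _) isCompact_Icc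
  have ace := ac_comp hL acq fun t ht => abs_le.1 (hC t ht)
  have acc : AbsolutelyContinuousOnInterval (fun _ : ℝ => D₀) a b :=
    (contDiff_const (n := 1)).contDiffOn.absolutelyContinuousOnInterval
  have e := ((acc.fun_add acp).fun_mul ace).integral_deriv_eq_sub
  have h0 : 0 ≤ ∫ x in a..b, deriv
      (fun x => (D₀ + ∫ t in a..x, p t) * Real.exp (-∫ t in a..x, q t)) x := by
    refine intervalIntegral.integral_nonneg_of_ae_restrict hab ?_
    rw [← restrict_Ioo_eq_restrict_Icc]
    filter_upwards [h, ae_restrict_mem measurableSet_Ioo,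
      ae_restrict_of_ae hp.ae_hasDerivAt_integral, ae_restrict_of_ae hq.ae_hasDerivAt_integral]
      with x h1 hx h2 h3
    have hx' : x ∈ uIcc a b := Icc_subset_uIcc (Ioo_subset_Icc_self hx)
    have d := ((h2 hx' a ha).const_add D₀).fun_mul (h3 hx' a ha).fun_neg.exp
    rw [d.deriv]
    have := mul_nonneg (sub_nonneg.2 h1) (Real.exp_pos (-∫ t in a..x, q t)).le
    simp only [Pi.zero_apply]
    linarith
  rw [e, intervalIntegral.integral_same, intervalIntegral.integral_same, add_zero, neg_zero,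
    Real.exp_zero, mul_one, sub_nonneg, Real.exp_neg, ← div_eq_mul_inv,
    le_div_iff₀ (Real.exp_pos _)] at h0
  exact h0

/-- Choice of a good radius. -/
theorem good_radius {F : ℝ → ℝ≥0∞} {a b M : ℝ} (hab : a < b) (hM : 0 ≤ M) (hF : Measurable F)
    (hI : ∫⁻ s in Ioo a b, F s ≤ ENNReal.ofReal M) {G : Set ℝ} (hG : MeasurableSet G) {β : ℝ}
    (hβ : 0 < β) (hvol : ENNReal.ofReal β ≤ volume (Ioo a b ∩ G)) {P : ℝ → Prop}
    (hP : ∀ᵐ s ∂(volume.restrict (Ioo a b)), P s) :
    ∃ s ∈ Ioo a b ∩ G, P s ∧ F s ≤ ENNReal.ofReal (M / β) := by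
  have h0 : volume (Ioo a b ∩ G) ≠ 0 := ((ENNReal.ofReal_pos.2 hβ).trans_le hvol).ne'
  have h1 : volume (Ioo a b ∩ G) ≠ ∞ :=
    ((measure_mono inter_subset_left).trans_lt measure_Ioo_lt_top).ne
  have h2 := measure_le_setLAverage_pos h0 h1 hF.aemeasurable
  obtain ⟨s, hs, hPs⟩ := Measure.exists_mem_of_measure_ne_zero_of_ae h2.ne'
    (ae_restrict_of_ae_restrict_of_subset (fun x hx => hx.1.1) hP)
  refine ⟨s, hs.1, hPs, hs.2.trans ?_⟩
  rw [setLAverage_eq, ENNReal.ofReal_div_of_pos hβ]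
  exact ENNReal.div_le_div ((lintegral_mono_set inter_subset_left).trans hI) hvol

end Vale.Agent.P128
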