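import Vale.Agent.P128.TB.Defs
import Vale.Agent.P128.TA1.Main
import Vale.Agent.P128.TA2.Dz

/-! P128 TB/Kit (TASK): calculus on circles. Helper names start with `kit_`.
`polarK`: `polar_int` for `Kᶜ.indicator G` (`integrableOn_indicator_iff`, `setIntegral_indicator`, `offK = Ioc ∩ preimage`). `circ_der`: `hasDerivAt_circleMap`, `circleMap 0 s θ = s • circleMap 0 1 θ`.
`un_ut_sq`: `fderiv_eq_dz`, `norm_dz`, `‖circleMap 0 1 θ‖ = 1`. `un_meas`: `fderiv_eq_dz` and `measurable_fderiv_apply_const`. `Dp_int`: `lintegral_const_mul'`, `integrable_toReal_of_lintegral_ne_top` or `ofReal_integral_eq_lintegral_ofReal`.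
`exists_trunc`: `T' x = max 0 (min 1 (2 - |x| / M))`, `T x = ∫ t in 0..x, T' t`; or any explicit piecewise quadratic function. -/

namespace Vale.Agent.P128

open MeasureTheory Set Metric Filter Topology
open scoped ENNReal

variable {Ω K : Set ℂ} {ε r s δ M : ℝ} {wk : Prop} {u κ : ℂ → ℝ} {y : ℂ} {T T' : ℝ → ℝ}

theorem kit_offK (K : Set ℂ) (y : ℂ) (s : ℝ) :
    offK K y s = Ioc (-Real.pi) Real.pi ∩ circleMap y s ⁻¹' Kᶜ := rfl

theorem kit_pre (hK : IsClosed K) (y : ℂ) (s : ℝ) : MeasurableSet (circleMap y s ⁻¹' Kᶜ) :=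
  (hK.isOpen_compl.preimage (continuous_circleMap y s)).measurableSet

theorem measurableSet_offK (hK : IsClosed K) (y : ℂ) (s : ℝ) : MeasurableSet (offK K y s) :=
  measurableSet_Ioc.inter (kit_pre hK y s)

theorem polarK (hK : IsClosed K) {G : ℂ → ℝ} (y : ℂ) {a b : ℝ} (ha : 0 ≤ a)
    (hG : IntegrableOn G (tbA y a b \ K)) :
    IntegrableOn (fun s : ℝ => ∫ θ in offK K y s, s * G (circleMap y s θ)) (Ioo a b) ∧
      ∫ z in tbA y a b \ K, G z = ∫ s in Ioo a b, ∫ θ in offK K y s, s * G (circleMap y s θ) := by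
  have hm : MeasurableSet Kᶜ := hK.isOpen_compl.measurableSet
  have hF : IntegrableOn (Kᶜ.indicator G) {z | dist z y ∈ Ioo a b} := by
    rw [integrableOn_indicator_iff hm, inter_comm]
    exact hG
  obtain ⟨h1, -, h3⟩ := polar_int y measurableSet_Ioo
    (fun x (hx : x ∈ Ioo a b) => (ha.trans_lt hx.1 : 0 < x)) hF
  have e : ∀ s : ℝ, ∫ θ in Ioc (-Real.pi) Real.pi, s * Kᶜ.indicator G (circleMap y s θ) =
      ∫ θ in offK K y s, s * G (circleMap y s θ) := fun s => by
    rw [kit_offK, ← setIntegral_indicator (kit_pre hK y s)]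
    refine integral_congr_ae (Eventually.of_forall fun θ => ?_)
    by_cases hθ : circleMap y s θ ∈ Kᶜ
    · simp only [indicator_of_mem hθ, indicator_of_mem (mem_preimage.2 hθ)]
    · have h' : θ ∉ circleMap y s ⁻¹' Kᶜ := hθ
      simp only [indicator_of_notMem hθ, indicator_of_notMem h', mul_zero]
  simp only [e] at h1 h3
  refine ⟨h1, ?_⟩
  rw [← h3, setIntegral_indicator hm]
  rfl

theorem kit_smul (s θ : ℝ) : circleMap 0 s θ = s • circleMap 0 1 θ := by
  simp [circleMap]

theorem tbN_circ (hs : 0 < s) (y : ℂ) (θ : ℝ) : tbN y (circleMap y s θ) = circleMap 0 1 θ := by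
  have h1 : dist (circleMap y s θ) y = s := by
    rw [dist_eq_norm, circleMap_sub_center, norm_circleMap_zero, abs_of_pos hs]
  rw [tbN, h1, circleMap_sub_center, kit_smul s θ, smul_smul, inv_mul_cancel₀ hs.ne', one_smul]

theorem circ_der {θ : ℝ} (h : DifferentiableAt ℝ u (circleMap y s θ)) :
    HasDerivAt (fun θ => u (circleMap y s θ)) (s * ut u y s θ) θ := by
  have h1 := h.hasFDerivAt.comp_hasDerivAt θ (hasDerivAt_circleMap y s θ)
  refine HasDerivAt.congr_deriv h1 ?_
  rw [kit_smul s θ, smul_mul_assoc, map_smul, smul_eq_mul, ut]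

theorem un_ut_sq (u : ℂ → ℝ) (y : ℂ) (s θ : ℝ) :
    un u y s θ ^ 2 + ut u y s θ ^ 2 = ‖fderiv ℝ u (circleMap y s θ)‖ ^ 2 := by
  have h1 : ‖dz u (circleMap y s θ) * circleMap 0 1 θ‖ = ‖fderiv ℝ u (circleMap y s θ)‖ := by
    rw [norm_mul, norm_circleMap_zero, abs_one, mul_one, (norm_dz u _).1]
  rw [un, ut, fderiv_eq_dz, fderiv_eq_dz, ← h1, ← mul_assoc, Complex.mul_I_re, Complex.sq_norm,
    Complex.normSq_apply]
  ring

theorem kit_dz (u : ℂ → ℝ) : Measurable (dz u) :=
  (Complex.measurable_ofReal.comp (measurable_fderiv_apply_const ℝ u 1)).sub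
    ((Complex.measurable_ofReal.comp (measurable_fderiv_apply_const ℝ u Complex.I)).const_mul _)

theorem un_meas (u : ℂ → ℝ) (y : ℂ) (s : ℝ) : Measurable (un u y s) ∧ Measurable (ut u y s) := by
  have h1 : Measurable fun θ => dz u (circleMap y s θ) :=
    (kit_dz u).comp (continuous_circleMap y s).measurable
  have h2 : Measurable (circleMap 0 1) := (continuous_circleMap 0 1).measurable
  constructor
  · have e : un u y s = fun θ => (dz u (circleMap y s θ) * circleMap 0 1 θ).re :=
      funext fun θ => fderiv_eq_dz _ _ _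
    rw [e]
    exact Complex.measurable_re.comp (h1.mul h2)
  · have e : ut u y s = fun θ => (dz u (circleMap y s θ) * (circleMap 0 1 θ * Complex.I)).re :=
      funext fun θ => fderiv_eq_dz _ _ _
    rw [e]
    exact Complex.measurable_re.comp (h1.mul (h2.mul_const _))

theorem un_per (u : ℂ → ℝ) (y : ℂ) (s : ℝ) : Function.Periodic (un u y s) (2 * Real.pi) ∧
    Function.Periodic (ut u y s) (2 * Real.pi) := by
  constructor <;> intro θ
  · rw [un, un, periodic_circleMap y s θ, periodic_circleMap 0 1 θ]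
  · rw [ut, ut, periodic_circleMap y s θ, periodic_circleMap 0 1 θ]

theorem un_cont {U : Set ℂ} (h : ContinuousOn (fderiv ℝ u) U) {I : Set ℝ}
    (hI : ∀ θ ∈ I, circleMap y s θ ∈ U) :
    ContinuousOn (un u y s) I ∧ ContinuousOn (ut u y s) I := by
  have h1 : ContinuousOn (fun θ => fderiv ℝ u (circleMap y s θ)) I :=
    h.comp (continuous_circleMap y s).continuousOn hI
  exact ⟨h1.clm_apply (continuous_circleMap 0 1).continuousOn,
    h1.clm_apply ((continuous_circleMap 0 1).mul continuous_const).continuousOn⟩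

theorem Dp_int (hs : 0 < s) (h : Dp u K y s < ∞) :
    IntegrableOn (fun θ => un u y s θ ^ 2) (offK K y s) ∧
      IntegrableOn (fun θ => ut u y s θ ^ 2) (offK K y s) ∧ (Dp u K y s).toReal =
        s * ((∫ θ in offK K y s, un u y s θ ^ 2) + ∫ θ in offK K y s, ut u y s θ ^ 2) := by
  obtain ⟨m1, m2⟩ := un_meas u y s
  have e : Dp u K y s =
      ∫⁻ θ in offK K y s, ENNReal.ofReal (s * (un u y s θ ^ 2 + ut u y s θ ^ 2)) := by
    refine lintegral_congr fun θ => ?_
    rw [un_ut_sq, ENNReal.ofReal_mul hs.le, ENNReal.ofReal_pow (norm_nonneg _), ofReal_norm]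
  have hm : Measurable fun θ => s * (un u y s θ ^ 2 + ut u y s θ ^ 2) :=
    ((m1.pow_const 2).add (m2.pow_const 2)).const_mul s
  have hp : ∀ θ, 0 ≤ s * (un u y s θ ^ 2 + ut u y s θ ^ 2) := fun θ => by positivity
  have hi : IntegrableOn (fun θ => s * (un u y s θ ^ 2 + ut u y s θ ^ 2)) (offK K y s) :=
    ⟨hm.aestronglyMeasurable, (hasFiniteIntegral_iff_ofReal (Eventually.of_forall hp)).2 (e ▸ h)⟩
  have hi' : IntegrableOn (fun θ => un u y s θ ^ 2 + ut u y s θ ^ 2) (offK K y s) :=
    (integrable_const_mul_iff (IsUnit.mk0 s hs.ne') _).1 hi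
  have i1 : IntegrableOn (fun θ => un u y s θ ^ 2) (offK K y s) :=
    hi'.mono' (m1.pow_const 2).aestronglyMeasurable (Eventually.of_forall fun θ => by
      rw [Real.norm_of_nonneg (sq_nonneg _)]
      exact le_add_of_nonneg_right (sq_nonneg _))
  have i2 : IntegrableOn (fun θ => ut u y s θ ^ 2) (offK K y s) :=
    hi'.mono' (m2.pow_const 2).aestronglyMeasurable (Eventually.of_forall fun θ => by
      rw [Real.norm_of_nonneg (sq_nonneg _)]
      exact le_add_of_nonneg_left (sq_nonneg _))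
  refine ⟨i1, i2, ?_⟩
  rw [e, ← integral_eq_lintegral_of_nonneg_ae (Eventually.of_forall hp) hm.aestronglyMeasurable,
    integral_const_mul, integral_add i1 i2]

theorem kit_trunc (hM : 0 < M) {g : ℝ → ℝ} (hc : Continuous g) (hmem : ∀ x, g x ∈ Icc (0 : ℝ) 1)
    (h0 : ∀ x, 2 * M ≤ |x| → g x = 0) (h1 : ∀ x, |x| ≤ M → g x = 1) :
    Trunc M (fun x => ∫ t in (0 : ℝ)..x, g t) g := by
  have hle : ∀ x : ℝ, |∫ t in (0 : ℝ)..x, g t| ≤ |x| := fun x => by
    have := intervalIntegral.norm_integral_le_of_norm_le_const (a := 0) (b := x) (C := 1) (f := g)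
      fun t _ => by rw [Real.norm_of_nonneg (hmem t).1]; exact (hmem t).2
    simpa using this
  have hfar : ∀ x x₀ : ℝ, |x₀| = 2 * M → (∀ t ∈ uIcc x₀ x, 2 * M ≤ |t|) →
      |∫ t in (0 : ℝ)..x, g t| ≤ 2 * M := fun x x₀ hx ht => by
    rw [← intervalIntegral.integral_add_adjacent_intervals (b := x₀) (hc.intervalIntegrable _ _)
      (hc.intervalIntegrable _ _), intervalIntegral.integral_congr (a := x₀) (g := fun _ => 0)
        fun t h => h0 t (ht t h), intervalIntegral.integral_zero, add_zero, ← hx]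
    exact hle _
  refine ⟨fun x => (hc.integral_hasStrictDerivAt 0 x).hasDerivAt, hc, hmem, hle, fun x => ?_,
    fun x hx => ⟨?_, h1 x hx⟩⟩
  · rcases le_total |x| (2 * M) with h | h
    · exact (hle x).trans h
    · rcases le_abs.1 h with h | h
      · refine hfar x (2 * M) (abs_of_pos (by positivity)) fun t ht => ?_
        rw [uIcc_of_le h] at ht
        exact ht.1.trans (le_abs_self t)
      · refine hfar x (-(2 * M)) (by rw [abs_neg, abs_of_pos (by positivity)]) fun t ht => ?_
        rw [uIcc_of_ge (by linarith)] at ht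
        exact (by linarith [ht.2] : 2 * M ≤ -t).trans (neg_le_abs t)
  · rw [intervalIntegral.integral_congr (g := fun _ => 1) fun t ht => h1 t ?_]
    · simp
    · have := abs_sub_left_of_mem_uIcc ht
      rw [sub_zero, sub_zero] at this
      exact this.trans hx

theorem exists_trunc (hM : 0 < M) : ∃ T T', Trunc M T T' := by
  refine ⟨_, _, kit_trunc hM (g := fun x : ℝ => max 0 (min 1 (2 - |x| / M))) (by fun_prop)
    (fun x => ⟨le_max_left _ _, max_le zero_le_one (min_le_left _ _)⟩) (fun x hx => ?_)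
    fun x hx => ?_⟩
  · have : 2 ≤ |x| / M := (le_div_iff₀ hM).2 hx
    exact max_eq_left ((min_le_right _ _).trans (by linarith))
  · have : |x| / M ≤ 1 := (div_le_one hM).2 hx
    rw [min_eq_left (by linarith), max_eq_right zero_le_one]

end Vale.Agent.P128
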