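import Vale.Agent.P128.TB.Defs
import Vale.Agent.P128.TA2.Main

/-! P128 TB/T4a (TASK): the test function. Helper names start with `t4a_`.
`psi_lip`: `locLip_iff`; for `z ∈ ball y r` the function is a product of functions Lipschitz near `z` (`u` is `C¹` there by `smooth_of_holo`, `κ` is constant near `z`, `T` is `C¹`, `ramp ∘ dist` is Lipschitz; a product of two functions Lipschitz near `z` is Lipschitz near `z`);
outside `closedBall y s` it vanishes near `z`. `psi_der`: off the null set `{y} ∪ sphere y s ∪ sphere y (s - δ)` (`Measure.addHaar_sphere`), three regions: `ramp = 1`, `ramp = (s - dist) / δ`, `ramp = 0` near `z`.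
The derivative of `dist · y` at `z ≠ y` is `innerSL ℝ (tbN y z)` (`dist_eq_norm`, `HasFDerivAt.norm_sq` and `sqrt`), of norm `1`, and `⟪tbN y z, gr u z⟫ = fderiv ℝ u z (tbN y z)` (`fderiv_eq_dz`, `norm_dz`). -/

namespace Vale.Agent.P128

open MeasureTheory Set Metric Filter Topology
open scoped ENNReal

variable {Ω K : Set ℂ} {ε r s δ M : ℝ} {wk : Prop} {u κ : ℂ → ℝ} {y : ℂ} {T T' : ℝ → ℝ}

theorem ramp_mem (s δ t : ℝ) : ramp s δ t ∈ Icc (0 : ℝ) 1 :=
  ⟨le_max_left _ _, max_le zero_le_one (min_le_left _ _)⟩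

theorem ramp_one (hδ : 0 < δ) {t : ℝ} (ht : t ≤ s - δ) : ramp s δ t = 1 := by
  have : 1 ≤ (s - t) / δ := (one_le_div hδ).2 (by linarith)
  rw [ramp, min_eq_left this, max_eq_right zero_le_one]

theorem ramp_zero (hδ : 0 < δ) {t : ℝ} (ht : s ≤ t) : ramp s δ t = 0 := by
  have : (s - t) / δ ≤ 0 := div_nonpos_of_nonpos_of_nonneg (by linarith) hδ.le
  exact max_eq_left ((min_le_right _ _).trans this)

theorem t4a_ramp_mid (hδ : 0 < δ) {t : ℝ} (h1 : s - δ ≤ t) (h2 : t ≤ s) :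
    ramp s δ t = (s - t) / δ := by
  have h3 : (s - t) / δ ≤ 1 := (div_le_one hδ).2 (by linarith)
  have h4 : 0 ≤ (s - t) / δ := div_nonneg (by linarith) hδ.le
  rw [ramp, min_eq_right h3, max_eq_right h4]

theorem t4a_comp {f : ℂ → ℝ} {z : ℂ} (h : LipAt f z) {φ : ℝ → ℝ}
    (hφ : ∃ (C : NNReal) (t : Set ℝ), t ∈ 𝓝 (f z) ∧ LipschitzOnWith C φ t) :
    LipAt (fun w => φ (f w)) z := by
  obtain ⟨C, t, ht, hf⟩ := h
  obtain ⟨C', t', ht', hφ⟩ := hφ
  have hc : ContinuousAt f z := hf.continuousOn.continuousAt ht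
  exact ⟨C' * C, t ∩ f ⁻¹' t', inter_mem ht (hc ht'),
    hφ.comp (hf.mono inter_subset_left) fun w hw => hw.2⟩

theorem t4a_comp1 {f : ℂ → ℝ} {z : ℂ} (h : LipAt f z) {φ : ℝ → ℝ} (hφ : ContDiff ℝ 1 φ) :
    LipAt (fun w => φ (f w)) z := by
  obtain ⟨C, t, ht, h1⟩ := (hφ.contDiffAt (x := f z)).exists_lipschitzOnWith
  exact t4a_comp h ⟨C, t, ht, h1⟩

theorem t4a_mul {f g : ℂ → ℝ} {z : ℂ} (h : LipAt f z) (h' : LipAt g z) :
    LipAt (fun w => f w * g w) z := by
  have h1 := (t4a_comp1 (h.add h') (φ := fun t => t ^ 2) (by fun_prop)).cmul (1 / 4)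
  have h2 := (t4a_comp1 (h.add (h'.cmul (-1))) (φ := fun t => t ^ 2) (by fun_prop)).cmul (-1 / 4)
  exact (h1.add h2).congr (Eventually.of_forall fun w => by ring)

theorem t4a_ramp_lip (s δ : ℝ) (y z : ℂ) : LipAt (fun w => ramp s δ (dist w y)) z := by
  have h1 : LipAt (fun w => dist w y) z :=
    ⟨1, univ, univ_mem, (LipschitzWith.dist_left y).lipschitzOnWith⟩
  have h2 := t4a_comp1 h1 (φ := fun t => (s - t) / δ) (by fun_prop)
  exact t4a_comp h2 (φ := fun t => max 0 (min 1 t))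
    ⟨1, univ, univ_mem, ((LipschitzWith.id.const_min 1).const_max 0).lipschitzOnWith⟩

theorem t4a_cd (hT : Trunc M T T') : ContDiff ℝ 1 T := by
  have e : deriv T = T' := funext fun x => (hT.der x).deriv
  exact contDiff_one_iff_deriv.2 ⟨fun x => (hT.der x).differentiableAt, e ▸ hT.cont⟩

theorem t4a_out (hδ : 0 < δ) {z : ℂ} (hz : s < dist z y) :
    tbPsi T u κ y s δ =ᶠ[𝓝 z] fun _ => 0 := by
  filter_upwards [(isOpen_lt continuous_const (continuous_id.dist continuous_const)).mem_nhds hz]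
    with w hw
  rw [tbPsi, ramp_zero (t := dist w y) hδ (le_of_lt hw), mul_zero]

theorem t4a_dist {z : ℂ} (hz : z ≠ y) :
    HasFDerivAt (fun w => dist w y) (innerSL ℝ (tbN y z)) z ∧ ‖innerSL ℝ (tbN y z)‖ = 1 := by
  have h0 : 0 < ‖z - y‖ := norm_pos_iff.2 (sub_ne_zero.2 hz)
  have h1 := (((hasFDerivAt_id (𝕜 := ℝ) z).sub_const y).norm_sq).sqrt (pow_pos h0 2).ne'
  simp only [id, Real.sqrt_sq (norm_nonneg _)] at h1
  constructor
  · simp only [dist_eq_norm]
    refine h1.congr_fderiv ?_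
    ext v
    all_goals
      simp only [tbN, dist_eq_norm, smul_apply, ContinuousLinearMap.comp_apply,
        ContinuousLinearMap.id_apply, innerSL_apply_apply, real_inner_smul_left, smul_eq_mul,
        nsmul_eq_mul]
      field_simp
      norm_num
  · rw [innerSL_apply_norm, tbN, norm_smul, dist_eq_norm, norm_inv, norm_norm,
      inv_mul_cancel₀ h0.ne']

theorem t4a_inner (u : ℂ → ℝ) (z a : ℂ) : innerSL ℝ a (gr u z) = fderiv ℝ u z a := by
  rw [innerSL_apply_apply, Complex.inner, fderiv_eq_dz, (norm_dz u z).2.2.1, ← map_mul,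
    Complex.conj_re]

theorem psi_lip (h : AM0 Ω ε wk u K) (hκ : LC (ball y r \ K) κ) (hT : Trunc M T T') (hδ : 0 < δ)
    (hs : s < r) : LocallyLipschitzOn (Ω \ K) (tbPsi T u κ y s δ) := by
  have hU := h.isOpen.sdiff h.closed
  refine (locLip_iff hU).2 fun z hz => ?_
  rcases lt_or_ge (dist z y) r with h1 | h1
  · have h2 := ((locLip_iff hU).1 h.locLip z hz).add (lipAt_const (-κ z) z)
    refine (t4a_mul (t4a_comp1 h2 (t4a_cd hT)) (t4a_ramp_lip s δ y z)).congr ?_
    filter_upwards [hκ z ⟨h1, hz.2⟩] with w hw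
    rw [tbPsi, hw, sub_eq_add_neg]
  · exact (lipAt_const 0 z).congr (t4a_out hδ (hs.trans_le h1))

theorem psi_der (h : AM0 Ω ε wk u K) (hκ : LC (ball y r \ K) κ) (hT : Trunc M T T') (hδ : 0 < δ)
    (hs : s < r) : ∀ᵐ z ∂(volume.restrict (Ω \ K)),
    fderiv ℝ (tbPsi T u κ y s δ) z (gr u z) =
      (ball y s).indicator
        (fun z => ramp s δ (dist z y) * (T' (u z - κ z) * ‖fderiv ℝ u z‖ ^ 2)) z -
      δ⁻¹ * (tbA y (s - δ) s).indicator (fun z => T (u z - κ z) * fderiv ℝ u z (tbN y z)) z ∧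
    ‖fderiv ℝ (tbPsi T u κ y s δ) z‖ ≤ (ball y s).indicator (fun z => ‖fderiv ℝ u z‖) z +
      δ⁻¹ * (tbA y (s - δ) s).indicator (fun z => |T (u z - κ z)|) z := by
  have hU := (h.isOpen.sdiff h.closed).measurableSet
  have n1 : ∀ t : ℝ, ∀ᵐ z ∂(volume : Measure ℂ), dist z y ≠ t := fun t =>
    compl_mem_ae_iff.2 (Measure.addHaar_sphere volume y t)
  filter_upwards [ae_restrict_mem hU, ae_restrict_of_ae (n1 0), ae_restrict_of_ae (n1 s),
    ae_restrict_of_ae (n1 (s - δ))] with z hz g0 g1 g2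
  have hc : Continuous fun w : ℂ => dist w y := continuous_id.dist continuous_const
  rcases lt_or_gt_of_ne g1 with h1 | h1
  swap
  · have m1 : z ∉ ball y s := fun hh => lt_asymm h1 (mem_ball.1 hh)
    have m2 : z ∉ tbA y (s - δ) s := fun hh => lt_asymm h1 hh.2
    simp only [(t4a_out hδ h1).fderiv_eq, indicator_of_notMem m1, indicator_of_notMem m2,
      fderiv_fun_const, Pi.zero_apply, zero_apply, mul_zero, sub_zero, norm_zero, add_zero,
      le_refl, and_self]
  have m1 : z ∈ ball y s := h1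
  have d1 : HasFDerivAt (fun w => T (u w - κ w)) (T' (u z - κ z) • fderiv ℝ u z) z := by
    have d0 := (hT.der (u z - κ z)).comp_hasFDerivAt z
      ((h.diff z hz).hasFDerivAt.sub_const (κ z))
    refine d0.congr_of_eventuallyEq ?_
    filter_upwards [hκ z ⟨h1.trans hs, hz.2⟩] with w hw
    rw [hw]
    rfl
  have b1 : ‖T' (u z - κ z) • fderiv ℝ u z‖ ≤ ‖fderiv ℝ u z‖ := by
    rw [norm_smul, Real.norm_of_nonneg (hT.mem _).1]
    exact mul_le_of_le_one_left (norm_nonneg _) (hT.mem _).2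
  have e1 : (T' (u z - κ z) • fderiv ℝ u z) (gr u z) = T' (u z - κ z) * ‖fderiv ℝ u z‖ ^ 2 := by
    rw [smul_apply, (norm_dz u z).2.2.2, smul_eq_mul]
  rcases lt_or_gt_of_ne g2 with h2 | h2
  · have m2 : z ∉ tbA y (s - δ) s := fun hh => lt_asymm h2 hh.1
    have e : tbPsi T u κ y s δ =ᶠ[𝓝 z] fun w => T (u w - κ w) := by
      filter_upwards [(isOpen_lt hc continuous_const).mem_nhds h2] with w hw
      rw [tbPsi, ramp_one hδ (le_of_lt hw), mul_one]
    rw [e.fderiv_eq, d1.fderiv, e1]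
    simp only [indicator_of_mem m1, indicator_of_notMem m2, ramp_one hδ h2.le, one_mul, mul_zero,
      sub_zero, add_zero, b1, and_self]
  · have m2 : z ∈ tbA y (s - δ) s := ⟨h2, h1⟩
    obtain ⟨d2, n2⟩ := t4a_dist (y := y) (dist_ne_zero.1 g0)
    have d3 : HasFDerivAt (fun w => ramp s δ (dist w y)) (δ⁻¹ • -innerSL ℝ (tbN y z)) z := by
      refine ((d2.const_sub s).const_mul δ⁻¹).congr_of_eventuallyEq ?_
      filter_upwards [(isOpen_lt hc continuous_const).mem_nhds h1,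
        (isOpen_lt continuous_const hc).mem_nhds h2] with w hw hw'
      rw [t4a_ramp_mid hδ (le_of_lt hw') (le_of_lt hw), div_eq_inv_mul]
    have d4 : HasFDerivAt (tbPsi T u κ y s δ) _ z := d1.fun_mul d3
    rw [d4.fderiv]
    simp only [indicator_of_mem m1, indicator_of_mem m2]
    constructor
    · simp only [add_apply, smul_apply, neg_apply, t4a_inner, (norm_dz u z).2.2.2, smul_eq_mul]
      ring
    · refine (norm_add_le _ _).trans ?_
      rw [add_comm]
      refine add_le_add ?_ (le_of_eq ?_)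
      · rw [norm_smul, Real.norm_of_nonneg (ramp_mem _ _ _).1]
        exact (mul_le_of_le_one_left (norm_nonneg _) (ramp_mem _ _ _).2).trans b1
      · rw [norm_smul, norm_smul, norm_neg, n2, Real.norm_of_nonneg (inv_pos.2 hδ).le,
          Real.norm_eq_abs]
        ring

end Vale.Agent.P128
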