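import Vale.Agent.P128.TB.Defs
import Vale.Agent.P128.TA2.Main

/-! P128 TB/T4i (TASK): integrability in the disc. Helper names start with `t4i_`.
`AM0.upper_real` gives `Dir u (ball y r \\ K) = ofReal (D ..)`, `D ≤ 8 r`; `ofReal_integral_eq_lintegral_ofReal` / `integral_eq_lintegral_of_nonneg_ae`, `measurable_fderiv`. `‖du‖ ≤ √r ‖du‖² / 2 + 1 / (2 √r)`, `Complex.volume_ball`, `π < 4`.
`u - κ` is continuous on the open set `ball y r \\ K` (`ContinuousOn.aestronglyMeasurable`); `Integrable.mono'`, `Integrable.bdd_mul`; `‖tbN y z‖ ≤ 1`; measurability of `fderiv ℝ u z (tbN y z)` through `fderiv_eq_dz` and `measurable_fderiv_apply_const`. -/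

namespace Vale.Agent.P128

open MeasureTheory Set Metric Filter Topology
open scoped ENNReal

variable {Ω K : Set ℂ} {ε r s δ M : ℝ} {wk : Prop} {u κ : ℂ → ℝ} {y : ℂ} {T T' : ℝ → ℝ}

theorem t4i_meas (u : ℂ → ℝ) : Measurable fun z => ‖fderiv ℝ u z‖ := (measurable_fderiv ℝ u).norm

theorem t4i_vol (y : ℂ) (r : ℝ) (K : Set ℂ) : volume (ball y r \ K) ≠ ∞ :=
  ((measure_mono fun _ h => h.1).trans_lt measure_ball_lt_top).ne

theorem t4i_real (y : ℂ) (hr : 0 < r) (K : Set ℂ) : volume.real (ball y r \ K) ≤ 4 * r ^ 2 := by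
  refine (measureReal_mono (fun _ h => h.1) measure_ball_lt_top.ne).trans ?_
  rw [Measure.real, Complex.volume_ball, ENNReal.toReal_mul, ENNReal.toReal_pow,
    ENNReal.toReal_ofReal hr.le, ENNReal.coe_toReal, NNReal.coe_real_pi, mul_comm]
  exact mul_le_mul_of_nonneg_right Real.pi_lt_four.le (sq_nonneg _)

theorem int_g2 (h : AM0 Ω ε wk u K) (hr : 0 < r) (hB : closedBall y r ⊆ Ω) :
    IntegrableOn (fun z => ‖fderiv ℝ u z‖ ^ 2) (ball y r \ K) ∧
      ∫ z in ball y r \ K, ‖fderiv ℝ u z‖ ^ 2 = D u K y r ∧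
      IntegrableOn (fun z => ‖fderiv ℝ u z‖) (ball y r \ K) ∧
      ∫ z in ball y r \ K, ‖fderiv ℝ u z‖ ≤ 6 * r * √r := by
  obtain ⟨-, h1, -, -, -, -, h2, h3, h4⟩ := h.upper_real hr hB
  have e : ∫⁻ z in ball y r \ K, ENNReal.ofReal (‖fderiv ℝ u z‖ ^ 2) = Dir u (ball y r \ K) :=
    lintegral_congr fun z => by rw [ENNReal.ofReal_pow (norm_nonneg _), ofReal_norm]
  have m : AEStronglyMeasurable (fun z => ‖fderiv ℝ u z‖ ^ 2) (volume.restrict (ball y r \ K)) :=
    ((t4i_meas u).pow_const 2).aestronglyMeasurable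
  have p : 0 ≤ᵐ[volume.restrict (ball y r \ K)] fun z => ‖fderiv ℝ u z‖ ^ 2 :=
    Eventually.of_forall fun z => sq_nonneg _
  have i2 : IntegrableOn (fun z => ‖fderiv ℝ u z‖ ^ 2) (ball y r \ K) :=
    ⟨m, (hasFiniteIntegral_iff_ofReal p).2 (by rw [e, h1]; exact ENNReal.ofReal_lt_top)⟩
  have e2 : ∫ z in ball y r \ K, ‖fderiv ℝ u z‖ ^ 2 = D u K y r := by
    rw [integral_eq_lintegral_of_nonneg_ae p m, e]
    rfl
  have hs : 0 < √r := Real.sqrt_pos.2 hr
  have ic : IntegrableOn (fun _ => 1 / (2 * √r)) (ball y r \ K) := integrableOn_const (t4i_vol y r K)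
  have ib : IntegrableOn (fun z => √r / 2 * ‖fderiv ℝ u z‖ ^ 2 + 1 / (2 * √r)) (ball y r \ K) :=
    (i2.const_mul _).add ic
  have b : ∀ z, ‖fderiv ℝ u z‖ ≤ √r / 2 * ‖fderiv ℝ u z‖ ^ 2 + 1 / (2 * √r) := fun z => by
    have : √r / 2 * ‖fderiv ℝ u z‖ ^ 2 + 1 / (2 * √r) - ‖fderiv ℝ u z‖ =
        (√r * ‖fderiv ℝ u z‖ - 1) ^ 2 / (2 * √r) := by
      field_simp
      ring
    have k : 0 ≤ (√r * ‖fderiv ℝ u z‖ - 1) ^ 2 / (2 * √r) := by positivity
    linarith
  have i1 : IntegrableOn (fun z => ‖fderiv ℝ u z‖) (ball y r \ K) :=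
    Integrable.mono' ib (t4i_meas u).aestronglyMeasurable
      (Eventually.of_forall fun z => by rw [norm_norm]; exact b z)
  refine ⟨i2, e2, i1, (integral_mono i1 ib b).trans ?_⟩
  rw [integral_add (i2.const_mul _) ic, integral_const_mul, e2, setIntegral_const, smul_eq_mul]
  have k1 : √r / 2 * D u K y r ≤ √r / 2 * (8 * r) :=
    mul_le_mul_of_nonneg_left (by linarith) (by positivity)
  have k2 : volume.real (ball y r \ K) * (1 / (2 * √r)) ≤ 4 * r ^ 2 * (1 / (2 * √r)) :=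
    mul_le_mul_of_nonneg_right (t4i_real y hr K) (by positivity)
  have k3 : 4 * r ^ 2 * (1 / (2 * √r)) = 2 * r * √r := by
    field_simp
    rw [Real.sq_sqrt hr.le]
    ring
  linarith

theorem cont_w (h : AM0 Ω ε wk u K) (hB : ball y r ⊆ Ω) (hκ : LC (ball y r \ K) κ) :
    ContinuousOn (fun z => u z - κ z) (ball y r \ K) := by
  intro z hz
  refine ((h.diff z ⟨hB hz.1, hz.2⟩).continuousAt.sub ?_).continuousWithinAt
  exact (continuousAt_const (y := κ z)).congr ((hκ z hz).mono fun w hw => hw.symm)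

theorem t4i_w (h : AM0 Ω ε wk u K) (hB : closedBall y r ⊆ Ω) (hκ : LC (ball y r \ K) κ) {F : ℝ → ℝ}
    (hF : Continuous F) :
    AEStronglyMeasurable (fun z => F (u z - κ z)) (volume.restrict (ball y r \ K)) :=
  (hF.comp_continuousOn (cont_w h (ball_subset_closedBall.trans hB) hκ)).aestronglyMeasurable
    (measurableSet_ball.diff h.closed.measurableSet)

theorem t4i_N (y z : ℂ) : ‖tbN y z‖ ≤ 1 := by
  unfold tbN
  rw [norm_smul, norm_inv, Real.norm_eq_abs, abs_of_nonneg dist_nonneg, dist_eq_norm]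
  exact inv_mul_le_one_of_le₀ le_rfl (norm_nonneg _)

theorem t4i_mN (u : ℂ → ℝ) (y : ℂ) : Measurable fun z => fderiv ℝ u z (tbN y z) := by
  have m : Measurable (tbN y) :=
    (continuous_id.dist continuous_const).measurable.inv.smul (measurable_id.sub_const y)
  exact ContinuousLinearMap.measurable_apply₂.comp ((measurable_fderiv ℝ u).prodMk m)

theorem int_T (h : AM0 Ω ε wk u K) (hr : 0 < r) (hB : closedBall y r ⊆ Ω)
    (hκ : LC (ball y r \ K) κ) (hT : Trunc M T T') :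
    IntegrableOn (fun z => T' (u z - κ z) * ‖fderiv ℝ u z‖ ^ 2) (ball y r \ K) ∧
      IntegrableOn (fun z => T (u z - κ z) * fderiv ℝ u z (tbN y z)) (ball y r \ K) ∧
      IntegrableOn (fun z => |T (u z - κ z)|) (ball y r \ K) := by
  obtain ⟨i2, -, i1, -⟩ := int_g2 h hr hB
  have cT : Continuous T := continuous_iff_continuousAt.2 fun x => (hT.der x).continuousAt
  refine ⟨Integrable.bdd_mul (c := 1) i2 (t4i_w h hB hκ hT.cont) (Eventually.of_forall fun z => ?_),
    Integrable.bdd_mul (c := 2 * M) ?_ (t4i_w h hB hκ cT) (Eventually.of_forall fun z => hT.bdd _),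
    ?_⟩
  · rw [Real.norm_eq_abs, abs_of_nonneg (hT.mem _).1]
    exact (hT.mem _).2
  · refine Integrable.mono' i1 (t4i_mN u y).aestronglyMeasurable (Eventually.of_forall fun z => ?_)
    exact ((fderiv ℝ u z).le_opNorm _).trans (mul_le_of_le_one_right (norm_nonneg _) (t4i_N y z))
  · refine Integrable.mono' (integrableOn_const (C := 2 * M) (t4i_vol y r K))
      (t4i_w h hB hκ cT.abs) (Eventually.of_forall fun z => ?_)
    rw [Real.norm_eq_abs, abs_abs]
    exact hT.bdd _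

theorem lim_T (h : AM0 Ω ε wk u K) (hr : 0 < r) (hB : closedBall y r ⊆ Ω)
    (hκ : LC (ball y r \ K) κ) {T T' : ℕ → ℝ → ℝ} (hT : ∀ n : ℕ, Trunc (n + 1) (T n) (T' n)) :
    Tendsto (fun n => ∫ z in ball y r \ K, T' n (u z - κ z) * ‖fderiv ℝ u z‖ ^ 2) atTop
      (𝓝 (D u K y r)) := by
  obtain ⟨i2, e2, -, -⟩ := int_g2 h hr hB
  rw [← e2]
  refine tendsto_integral_of_dominated_convergence (fun z => ‖fderiv ℝ u z‖ ^ 2)
    (fun n => (int_T h hr hB hκ (hT n)).1.aestronglyMeasurable) i2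
    (fun n => Eventually.of_forall fun z => ?_) (Eventually.of_forall fun z => ?_)
  · rw [Real.norm_eq_abs, abs_of_nonneg (mul_nonneg ((hT n).mem _).1 (sq_nonneg _))]
    exact mul_le_of_le_one_left (sq_nonneg _) ((hT n).mem _).2
  · refine tendsto_const_nhds.congr' ?_
    obtain ⟨N, hN⟩ := exists_nat_ge |u z - κ z|
    filter_upwards [eventually_ge_atTop N] with n hn
    have : (N : ℝ) ≤ n := Nat.cast_le.2 hn
    rw [((hT n).eq _ (by linarith)).2, one_mul]

end Vale.Agent.P128
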