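import Vale.Agent.P128.TB.T4a
import Vale.Agent.P128.TB.T4i

/-! P128 TB/T4b (TASK): the outer variation for the test function. Helper names start with `t4b_`.
Apply `h.outer` to `ψ = tbPsi T u κ y s δ`, `C = closedBall y s` (`ramp_zero`, `psi_lip`, `|ψ| ≤ 2 M`; `Dir ψ < ∞` from the norm bound of `psi_der`: `‖dψ‖² ≤ 2 ‖du‖² + 2 (2M/δ)²` on `ball y s`, zero elsewhere).
Rewrite the integrals over `Ω \\ K` with `psi_der` (`integral_congr_ae`, `setIntegral_indicator`, `(Ω \\ K) ∩ ball y s = ball y s \\ K`); integrability from `int_g2`, `int_T` (`IntegrableOn.mono_set`).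
`a |ψ| ≤ a |u| + a |κ| ≤ 2 ε / √s` on `ball y s` (first part of `outer` with radius `s`), so `a ∫ |ψ| ≤ 2 π ε s √s ≤ 8 ε s √s`; `ε ∫ ‖du‖ ≤ 6 ε s √s`;
`0 ≤ (1 - ramp) T' ‖du‖² ≤ indicator (tbA ..) ‖du‖²` off the null sphere `dist = s - δ` (there `ramp = 1` anyway: `ramp_one`). -/

namespace Vale.Agent.P128

open MeasureTheory Set Metric Filter Topology
open scoped ENNReal

variable {Ω K : Set ℂ} {ε r s δ M : ℝ} {wk : Prop} {u κ : ℂ → ℝ} {y : ℂ} {T T' : ℝ → ℝ}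

theorem t4b_ind {E : Set ℂ} (hE : MeasurableSet E) (hs : E ⊆ Ω) {f : ℂ → ℝ}
    (hf : IntegrableOn f (E \ K)) : IntegrableOn (E.indicator f) (Ω \ K) ∧
      ∫ z in Ω \ K, E.indicator f z = ∫ z in E \ K, f z := by
  have e : (Ω \ K) ∩ E = E \ K := by
    ext z
    exact ⟨fun hz => ⟨hz.2, hz.1.2⟩, fun hz => ⟨⟨hs hz.1, hz.2⟩, hz.1⟩⟩
  refine ⟨?_, by rw [setIntegral_indicator hE, e]⟩
  rw [IntegrableOn, integrable_indicator_iff hE, IntegrableOn, Measure.restrict_restrict hE,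
    inter_comm, e]
  exact hf

theorem t4b_meas (y : ℂ) (a b : ℝ) : MeasurableSet (tbA y a b) :=
  (isOpen_Ioo.preimage (continuous_id.dist continuous_const)).measurableSet

theorem t4b_sub (y : ℂ) (a b : ℝ) : tbA y a b ⊆ ball y b := fun _ hz => hz.2

theorem t4b_fin (y : ℂ) (s : ℝ) (K : Set ℂ) : volume (ball y s \ K) ≠ ∞ :=
  ((measure_mono sdiff_subset).trans_lt measure_ball_lt_top).ne

theorem t4b_vol (y : ℂ) (hs : 0 ≤ s) (K : Set ℂ) : volume.real (ball y s \ K) ≤ 4 * s ^ 2 := by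
  refine (measureReal_mono sdiff_subset measure_ball_lt_top.ne).trans ?_
  rw [Measure.real, Complex.volume_ball, ENNReal.toReal_mul, ENNReal.toReal_pow,
    ENNReal.toReal_ofReal hs, ENNReal.coe_toReal, NNReal.coe_real_pi]
  nlinarith [Real.pi_le_four, sq_nonneg s]

theorem t4b_abs (z : ℂ) : |tbPsi T u κ y s δ z| ≤ |T (u z - κ z)| := by
  have h1 := ramp_mem s δ (dist z y)
  rw [tbPsi, abs_mul, abs_of_nonneg h1.1]
  exact mul_le_of_le_one_right (abs_nonneg _) h1.2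

theorem t4b_zero (hδ : 0 < δ) {z : ℂ} (hz : z ∉ ball y s) : tbPsi T u κ y s δ z = 0 := by
  rw [tbPsi, ramp_zero hδ (not_lt.1 hz), mul_zero]

theorem t4b_dir (h : AM0 Ω ε wk u K) (hB : closedBall y s ⊆ Ω) (hκ : LC (ball y r \ K) κ)
    (hT : Trunc M T T') (hδ : 0 < δ) (hs0 : 0 < s) (hs : s < r) :
    Dir (tbPsi T u κ y s δ) (Ω \ K) < ∞ := by
  have hi : IntegrableOn (fun z => 2 * ‖fderiv ℝ u z‖ ^ 2 + 2 * (δ⁻¹ * (2 * M)) ^ 2)
      (ball y s \ K) :=
    ((int_g2 h hs0 hB).1.const_mul 2).add (integrableOn_const (t4b_fin y s K))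
  have hj := (t4b_ind (Ω := Ω) measurableSet_ball (ball_subset_closedBall.trans hB) hi).1
  refine lt_of_le_of_lt (lintegral_mono_ae ?_) hj.lintegral_lt_top
  filter_upwards [psi_der h hκ hT hδ hs] with z hz
  rw [← ofReal_norm, ← ENNReal.ofReal_pow (norm_nonneg _)]
  refine ENNReal.ofReal_le_ofReal ?_
  have h2 := hz.2
  have hM : 0 ≤ 2 * M := (abs_nonneg _).trans (hT.bdd 0)
  have hd : 0 ≤ δ⁻¹ := (inv_pos.2 hδ).le
  by_cases hb : z ∈ ball y s
  · rw [indicator_of_mem hb] at h2 ⊢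
    have h3 : (tbA y (s - δ) s).indicator (fun z => |T (u z - κ z)|) z ≤ 2 * M :=
      indicator_apply_le' (fun _ => hT.bdd _) fun _ => hM
    have h4 := h2.trans (add_le_add le_rfl (mul_le_mul_of_nonneg_left h3 hd))
    have h5 := pow_le_pow_left₀ (norm_nonneg _) h4 2
    nlinarith [sq_nonneg (‖fderiv ℝ u z‖ - δ⁻¹ * (2 * M))]
  · rw [indicator_of_notMem hb, indicator_of_notMem fun hc => hb (t4b_sub _ _ _ hc), mul_zero,
      add_zero] at h2
    rw [indicator_of_notMem hb, le_antisymm h2 (norm_nonneg _)]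
    norm_num

theorem t4b_low {a : ℝ} (ha : 0 ≤ a) (hB : closedBall y s ⊆ Ω) (hε : 0 ≤ ε)
    (h1 : ∀ z ∈ Ω \ K, a * |u z| * √s ≤ ε) (hm : MeasurableSet (Ω \ K))
    (hκb : ∀ z, κ z = 0 ∨ ∃ z' ∈ Ω \ K, |κ z| ≤ |u z'|) (hT : Trunc M T T') (hδ : 0 < δ)
    (hs0 : 0 < s) : a * ∫ z in Ω \ K, |tbPsi T u κ y s δ z| ≤ 8 * ε * s * √s := by
  have hq : 0 < √s := Real.sqrt_pos.2 hs0
  have h2 : ∀ z ∈ Ω \ K, a * |u z| ≤ ε / √s := fun z hz => (le_div_iff₀ hq).2 (h1 z hz)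
  have h0 : 0 ≤ ε / √s := div_nonneg hε hq.le
  have h3 : ∀ z, a * |κ z| ≤ ε / √s := fun z => by
    rcases hκb z with e | ⟨z', hz', e⟩
    · rw [e, abs_zero, mul_zero]
      exact h0
    · exact (mul_le_mul_of_nonneg_left e ha).trans (h2 z' hz')
  obtain ⟨hi, he⟩ := t4b_ind (Ω := Ω) (K := K) (f := fun _ => 2 * (ε / √s)) measurableSet_ball
    (ball_subset_closedBall.trans hB) (integrableOn_const (t4b_fin y s K))
  rw [← integral_const_mul]
  refine (integral_mono_of_nonneg (ae_of_all _ fun z => mul_nonneg ha (abs_nonneg _)) hi ?_).trans ?_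
  · filter_upwards [ae_restrict_mem hm] with z hz
    by_cases hb : z ∈ ball y s
    · rw [indicator_of_mem hb]
      have h4 : |tbPsi T u κ y s δ z| ≤ |u z| + |κ z| :=
        (t4b_abs z).trans ((hT.le _).trans (abs_sub _ _))
      have h5 := mul_le_mul_of_nonneg_left h4 ha
      linarith [h2 z hz, h3 z]
    · rw [indicator_of_notMem hb, t4b_zero hδ hb, abs_zero, mul_zero]
  · rw [he, setIntegral_const, smul_eq_mul]
    refine (mul_le_mul_of_nonneg_right (t4b_vol y hs0.le K) (by positivity)).trans (le_of_eq ?_)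
    have e : s ^ 2 = s * (√s * √s) := by rw [Real.mul_self_sqrt hs0.le, sq]
    rw [e]
    field_simp
    ring

theorem t4b_ramp {f : ℂ → ℝ} (hf : IntegrableOn f (ball y s \ K)) :
    IntegrableOn (fun z => ramp s δ (dist z y) * f z) (ball y s \ K) := by
  refine Integrable.bdd_mul (c := 1) hf (Continuous.aestronglyMeasurable ?_)
    (ae_of_all _ fun z => ?_)
  · unfold ramp
    fun_prop
  · have h1 := ramp_mem s δ (dist z y)
    rw [Real.norm_eq_abs, abs_of_nonneg h1.1]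
    exact h1.2

theorem t4b_diff (hK : IsClosed K) (hT : Trunc M T T') (hδ : 0 < δ) {w g : ℂ → ℝ}
    (hg : IntegrableOn (fun z => g z ^ 2) (ball y s \ K))
    (hf : IntegrableOn (fun z => T' (w z) * g z ^ 2) (ball y s \ K)) :
    |(∫ z in ball y s \ K, T' (w z) * g z ^ 2) -
      ∫ z in ball y s \ K, ramp s δ (dist z y) * (T' (w z) * g z ^ 2)| ≤
      ∫ z in tbA y (s - δ) s \ K, g z ^ 2 := by
  have hm : MeasurableSet (ball y s \ K) := measurableSet_ball.diff hK.measurableSet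
  obtain ⟨hi, he⟩ := t4b_ind (Ω := ball y s) (t4b_meas y (s - δ) s) (t4b_sub _ _ _)
    (hg.mono_set (sdiff_subset_sdiff_left (t4b_sub _ _ _)))
  rw [← integral_sub hf (t4b_ramp hf), ← he]
  refine (abs_integral_le_integral_abs).trans
    (integral_mono_of_nonneg (ae_of_all _ fun z => abs_nonneg _) hi ?_)
  filter_upwards [ae_restrict_mem hm] with z hz
  have h1 := ramp_mem s δ (dist z y)
  have h2 := hT.mem (w z)
  have h3 : 0 ≤ T' (w z) * g z ^ 2 := mul_nonneg h2.1 (sq_nonneg _)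
  by_cases hb : z ∈ tbA y (s - δ) s
  · rw [indicator_of_mem hb]
    have h4 : T' (w z) * g z ^ 2 ≤ g z ^ 2 := mul_le_of_le_one_left (sq_nonneg _) h2.2
    have h5 := mul_nonneg h1.1 h3
    have h6 := mul_le_of_le_one_left h3 h1.2
    rw [abs_of_nonneg (by linarith)]
    linarith
  · have h4 : dist z y ≤ s - δ := not_lt.1 fun hc => hb ⟨hc, hz.1⟩
    rw [indicator_of_notMem hb, ramp_one hδ h4, one_mul, sub_self, abs_zero]

theorem T4_delta (h : AM0 Ω ε wk u K) (hB : closedBall y r ⊆ Ω) (hκ : LC (ball y r \ K) κ)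
    (hκb : ∀ z, κ z = 0 ∨ ∃ z' ∈ Ω \ K, |κ z| ≤ |u z'|) (hT : Trunc M T T') (hδ : 0 < δ)
    (hδs : δ < s) (hs : s < r) :
    |(∫ z in ball y s \ K, T' (u z - κ z) * ‖fderiv ℝ u z‖ ^ 2) -
        δ⁻¹ * ∫ z in tbA y (s - δ) s \ K, T (u z - κ z) * fderiv ℝ u z (tbN y z)| ≤
      20 * ε * s * √s + ε * (δ⁻¹ * ∫ z in tbA y (s - δ) s \ K, |T (u z - κ z)|) +
        ∫ z in tbA y (s - δ) s \ K, ‖fderiv ℝ u z‖ ^ 2 := by
  have hs0 : 0 < s := hδ.trans hδs
  have hBs : closedBall y s ⊆ Ω := (closedBall_subset_closedBall hs.le).trans hB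
  have hbs : ball y s ⊆ Ω := ball_subset_closedBall.trans hBs
  have hA : tbA y (s - δ) s ⊆ Ω := (t4b_sub _ _ _).trans hbs
  have hAK : tbA y (s - δ) s \ K ⊆ ball y s \ K := sdiff_subset_sdiff_left (t4b_sub _ _ _)
  have hκs : LC (ball y s \ K) κ := fun z hz => hκ z ⟨ball_subset_ball hs.le hz.1, hz.2⟩
  have hm : MeasurableSet (Ω \ K) := (h.isOpen.sdiff h.closed).measurableSet
  obtain ⟨g1, _, g2, g3⟩ := int_g2 h hs0 hBs
  obtain ⟨f1, f2, f3⟩ := int_T h hs0 hBs hκs hT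
  obtain ⟨a, ha, h1, h2⟩ := h.outer
  have h3 := h2 (tbPsi T u κ y s δ) (closedBall y s) (isCompact_closedBall y s) hBs
    (fun z hz => t4b_zero hδ fun hc => hz (ball_subset_closedBall hc)) (psi_lip h hκ hT hδ hs)
    ⟨2 * M, fun z => (t4b_abs z).trans (hT.bdd _)⟩ (t4b_dir h hBs hκ hT hδ hs0 hs)
  have h4 := t4b_low ha hBs h.eps (h1 y s hs0 hBs).2 hm hκb hT hδ hs0
  have hd := psi_der h hκ hT hδ hs
  obtain ⟨i1, e1⟩ := t4b_ind (Ω := Ω) measurableSet_ball hbs (t4b_ramp (δ := δ) f1)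
  obtain ⟨i2, e2⟩ := t4b_ind (Ω := Ω) (t4b_meas y (s - δ) s) hA (f2.mono_set hAK)
  obtain ⟨i3, e3⟩ := t4b_ind (Ω := Ω) measurableSet_ball hbs g2
  obtain ⟨i4, e4⟩ := t4b_ind (Ω := Ω) (t4b_meas y (s - δ) s) hA (f3.mono_set hAK)
  have h5 : ∫ z in Ω \ K, fderiv ℝ (tbPsi T u κ y s δ) z (gr u z) =
      (∫ z in ball y s \ K, ramp s δ (dist z y) * (T' (u z - κ z) * ‖fderiv ℝ u z‖ ^ 2)) -
        δ⁻¹ * ∫ z in tbA y (s - δ) s \ K, T (u z - κ z) * fderiv ℝ u z (tbN y z) := by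
    rw [← e1, ← e2, ← integral_const_mul, ← integral_sub i1 (i2.const_mul _)]
    exact integral_congr_ae (hd.mono fun z hz => hz.1)
  have h6 : ∫ z in Ω \ K, ‖fderiv ℝ (tbPsi T u κ y s δ) z‖ ≤
      (∫ z in ball y s \ K, ‖fderiv ℝ u z‖) +
        δ⁻¹ * ∫ z in tbA y (s - δ) s \ K, |T (u z - κ z)| := by
    rw [← e3, ← e4, ← integral_const_mul, ← integral_add i3 (i4.const_mul _)]
    exact integral_mono_of_nonneg (ae_of_all _ fun z => norm_nonneg _) (i3.add (i4.const_mul _))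
      (hd.mono fun z hz => hz.2)
  have h7 := t4b_diff (w := fun z => u z - κ z) (g := fun z => ‖fderiv ℝ u z‖) h.closed hT hδ g1 f1
  have h8 := mul_le_mul_of_nonneg_left (h6.trans (add_le_add g3 le_rfl)) h.eps
  have h9 : 0 ≤ ε * s * √s := mul_nonneg (mul_nonneg h.eps hs0.le) (Real.sqrt_nonneg s)
  rw [h5] at h3
  refine (abs_sub_le _ (∫ z in ball y s \ K,
    ramp s δ (dist z y) * (T' (u z - κ z) * ‖fderiv ℝ u z‖ ^ 2)) _).trans ?_
  linarith

end Vale.Agent.P128
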