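import Vale.Agent.P128.TB.Gron
import Vale.Agent.P128.TB.Defs
import Vale.Agent.P128.TA1.Main

/-! P128 TB/T5 (TASK): decay from differential inequalities. Helper names start with `t5_`.
`D_int`: `polar`, `integrable_toReal_of_lintegral_ne_top`, `integral_toReal`, `ae_lt_top`, `intervalIntegral.integral_add_adjacent_intervals`.
`T5_exact`: `tb_gron` with `q s = 1 / (κ s)` (`integral_one_div`, `Real.rpow_def_of_pos`). `T5`: if the first alternative fails then `E s √s ≤ D s / m` on `Ioo (τ r) r` (monotonicity from `D_int`);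
`tb_gron` with `q = G.indicator ((1 - 1/m) / (κ s))`, `∫ q = (1 - 1/m)/κ * (log (1/τ) - ∫_bad 1/s)` (`integral_inter_add_diff`, `ofReal_integral_eq_lintegral_ofReal`).
`Dp_of_linear`: on `Ioo 0 (n + 1)`, `IntervalIntegrable.ae_hasDerivAt_integral` and uniqueness of the derivative; `ae_restrict_iUnion_iff`. -/

namespace Vale.Agent.P128

open MeasureTheory Set Metric Filter Topology
open scoped ENNReal

theorem D_int {u : ℂ → ℝ} {K : Set ℂ} (hK : IsClosed K) {y : ℂ} {b : ℝ} (hb : 0 ≤ b)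
    (hfin : Dir u (ball y b \ K) < ∞) :
    IntervalIntegrable (fun s => (Dp u K y s).toReal) volume 0 b ∧
      (∀ᵐ s ∂(volume.restrict (Ioo 0 b)), Dp u K y s < ∞) ∧
      ∀ a ∈ Icc 0 b, ∀ s ∈ Icc 0 b, D u K y s = D u K y a + ∫ t in a..s, (Dp u K y t).toReal := by
  obtain ⟨hm, -, hp⟩ := polar hK u y
  have hf : ∫⁻ s in Ioo 0 b, Dp u K y s ≠ ∞ := by rw [← (hp b).1]; exact hfin.ne
  have hint : IntervalIntegrable (fun s => (Dp u K y s).toReal) volume 0 b := by
    rw [intervalIntegrable_iff_integrableOn_Ioo_of_le hb]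
    exact integrable_toReal_of_lintegral_ne_top hm.aemeasurable hf
  have hD : ∀ s ∈ Icc 0 b, D u K y s = ∫ t in (0 : ℝ)..s, (Dp u K y t).toReal := fun s hs => by
    have hfs : ∫⁻ t in Ioo 0 s, Dp u K y t ≠ ∞ :=
      ne_top_of_le_ne_top hf (lintegral_mono_set (Ioo_subset_Ioo_right hs.2))
    simp only [D]
    rw [(hp s).1, intervalIntegral.integral_of_le hs.1, integral_Ioc_eq_integral_Ioo,
      integral_toReal hm.aemeasurable (ae_lt_top hm hfs)]
  refine ⟨hint, ae_lt_top hm hf, fun a ha s hs => ?_⟩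
  have hsub : ∀ c ∈ Icc 0 b, ∀ d ∈ Icc 0 b, uIcc c d ⊆ uIcc 0 b := fun c hc d hd => by
    rw [uIcc_of_le hb]
    exact uIcc_subset_Icc hc hd
  rw [hD s hs, hD a ha, intervalIntegral.integral_add_adjacent_intervals
    (hint.mono_set (hsub 0 ⟨le_rfl, hb⟩ a ha)) (hint.mono_set (hsub a ha s hs))]

theorem t5_gron {u : ℂ → ℝ} {K : Set ℂ} (hK : IsClosed K) {y : ℂ} {a b : ℝ} (ha : 0 ≤ a)
    (hab : a ≤ b) (hfin : Dir u (ball y b \ K) < ∞) {q : ℝ → ℝ}
    (hq : IntervalIntegrable q volume a b)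
    (h : ∀ᵐ s ∂(volume.restrict (Ioo a b)), q s * D u K y s ≤ (Dp u K y s).toReal) :
    D u K y a * Real.exp (∫ s in a..b, q s) ≤ D u K y b := by
  have hb : 0 ≤ b := ha.trans hab
  obtain ⟨hint, -, hD⟩ := D_int hK hb hfin
  have hint' : IntervalIntegrable (fun s => (Dp u K y s).toReal) volume a b :=
    hint.mono_set (by rw [uIcc_of_le hb, uIcc_of_le hab]; exact Icc_subset_Icc_left ha)
  rw [hD a ⟨ha, hab⟩ b ⟨hb, le_rfl⟩]
  refine tb_gron hab hint' hq ?_
  filter_upwards [h, ae_restrict_mem measurableSet_Ioo] with s hs hs'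
  rwa [← hD a ⟨ha, hab⟩ s ⟨ha.trans hs'.1.le, hs'.2.le⟩]

theorem t5_inv {a b : ℝ} (ha : 0 < a) (hab : a ≤ b) :
    IntervalIntegrable (fun s : ℝ => 1 / s) volume a b ∧ ∫ s in a..b, 1 / s = Real.log (b / a) := by
  have h0 : (0 : ℝ) ∉ uIcc a b := by
    rw [uIcc_of_le hab]
    exact fun h => absurd h.1 (not_le.2 ha)
  refine ⟨ContinuousOn.intervalIntegrable ?_, integral_one_div h0⟩
  exact continuousOn_const.div continuousOn_id fun x hx hx0 => h0 (hx0 ▸ hx)

theorem t5_ind {a b η : ℝ} (ha : 0 < a) (hab : a ≤ b) (hη : 0 ≤ η) {G : Set ℝ}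
    (hG : MeasurableSet G)
    (hbad : ∫⁻ s in Ioo a b \ G, ENNReal.ofReal (1 / s) ≤ ENNReal.ofReal η) :
    IntervalIntegrable (G.indicator fun s : ℝ => 1 / s) volume a b ∧
      Real.log (b / a) - η ≤ ∫ s in a..b, G.indicator (fun s : ℝ => 1 / s) s := by
  obtain ⟨h1, h2⟩ := t5_inv ha hab
  rw [intervalIntegrable_iff_integrableOn_Ioo_of_le hab] at h1 ⊢
  refine ⟨h1.indicator hG, ?_⟩
  rw [intervalIntegral.integral_of_le hab, integral_Ioc_eq_integral_Ioo] at h2 ⊢
  rw [setIntegral_indicator hG, ← h2, ← integral_inter_add_sdiff hG h1]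
  have h3 : ENNReal.ofReal (∫ s in Ioo a b \ G, 1 / s) =
      ∫⁻ s in Ioo a b \ G, ENNReal.ofReal (1 / s) := by
    refine ofReal_integral_eq_lintegral_ofReal (h1.mono_set sdiff_subset) ?_
    filter_upwards [ae_restrict_mem (measurableSet_Ioo.diff hG)] with s hs
    exact div_nonneg zero_le_one (ha.trans hs.1.1).le
  rw [← h3, ENNReal.ofReal_le_ofReal_iff hη] at hbad
  linarith

/-- Decay from a differential inequality on a set of good radii. -/
theorem T5 {u : ℂ → ℝ} {K : Set ℂ} (hK : IsClosed K) {y : ℂ} {r τ κ E m η : ℝ} (hr : 0 < r)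
    (hfin : Dir u (ball y r \ K) < ∞) (hτ : 0 < τ) (hτ1 : τ < 1) (hκ : 0 < κ) (hE : 0 ≤ E)
    (hm : 1 < m) (hη : 0 ≤ η) {G : Set ℝ} (hG : MeasurableSet G)
    (hbad : ∫⁻ s in Ioo (τ * r) r \ G, ENNReal.ofReal (1 / s) ≤ ENNReal.ofReal η)
    (hdi : ∀ᵐ s ∂(volume.restrict (Ioo (τ * r) r ∩ G)), ENNReal.ofReal (D u K y s) ≤
      ENNReal.ofReal (κ * s) * Dp u K y s + ENNReal.ofReal (E * s * √s)) :
    D u K y (τ * r) ≤ m * E * r * √r ∨
    D u K y (τ * r) ≤
      Real.exp (-((1 - 1 / m) / κ) * (Real.log (1 / τ) - η)) * D u K y r := by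
  by_cases hc : D u K y (τ * r) ≤ m * E * r * √r
  · exact Or.inl hc
  right
  have ha : 0 < τ * r := mul_pos hτ hr
  have hab : τ * r ≤ r := by nlinarith
  have hm0 : 0 < m := by linarith
  have hm1 : 0 < 1 - 1 / m := by
    rw [sub_pos, div_lt_one hm0]; exact hm
  obtain ⟨c, hcd⟩ : ∃ c, c = (1 - 1 / m) / κ := ⟨_, rfl⟩
  have hc0 : 0 < c := hcd ▸ div_pos hm1 hκ
  obtain ⟨hi1, hi2⟩ := t5_ind ha hab hη hG hbad
  obtain ⟨hint, hlt, hD⟩ := D_int hK hr.le hfin
  have hlt' := ae_restrict_of_ae_restrict_of_subset (Ioo_subset_Ioo_left ha.le) hlt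
  rw [ae_restrict_iff' (measurableSet_Ioo.inter hG)] at hdi
  have hg := t5_gron hK ha.le hab hfin (hi1.const_mul c) (by
    filter_upwards [hlt', ae_restrict_mem measurableSet_Ioo, ae_restrict_of_ae hdi]
      with s h1 h2 h3
    by_cases hs : s ∈ G
    · have hs0 : 0 < s := ha.trans h2.1
      have h4 := h3 ⟨h2, hs⟩
      have hp0 : 0 ≤ (Dp u K y s).toReal := ENNReal.toReal_nonneg
      rw [← ENNReal.ofReal_toReal h1.ne, ← ENNReal.ofReal_mul (by positivity),
        ← ENNReal.ofReal_add (by positivity) (by positivity),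
        ENNReal.ofReal_le_ofReal_iff (by positivity)] at h4
      have h5 : D u K y (τ * r) ≤ D u K y s := by
        rw [hD _ ⟨ha.le, hab⟩ s ⟨hs0.le, h2.2.le⟩]
        have := intervalIntegral.integral_nonneg (μ := volume)
          (f := fun t => (Dp u K y t).toReal) h2.1.le fun _ _ => ENNReal.toReal_nonneg
        linarith
      have h6 : E * s * √s ≤ E * r * √r := by
        have := h2.2.le
        gcongr
      have h7 : E * s * √s ≤ 1 / m * D u K y s := by
        rw [one_div, ← div_eq_inv_mul, le_div_iff₀ hm0]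
        have := mul_le_mul_of_nonneg_left h6 hm0.le
        linarith [not_le.1 hc]
      rw [indicator_of_mem hs, hcd]
      have h8 : (1 - 1 / m) / κ * (1 / s) * D u K y s = (1 - 1 / m) * D u K y s / (κ * s) := by
        field_simp
      rw [h8, div_le_iff₀ (by positivity)]
      linarith
    · rw [indicator_of_notMem hs, mul_zero, zero_mul]
      exact ENNReal.toReal_nonneg)
  rw [intervalIntegral.integral_const_mul] at hg
  have e : r / (τ * r) = 1 / τ := by field_simp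
  rw [e] at hi2
  have hD0 : 0 ≤ D u K y (τ * r) := ENNReal.toReal_nonneg
  have h9 : D u K y (τ * r) * Real.exp (c * (Real.log (1 / τ) - η)) ≤ D u K y r := by
    refine le_trans ?_ hg
    gcongr
  rw [← hcd, neg_mul, Real.exp_neg, ← div_eq_inv_mul, le_div_iff₀ (Real.exp_pos _)]
  exact h9

/-- Exact monotonicity: `D s ≤ κ s D' s` almost everywhere gives `D s / s ^ (1/κ)` monotone;
constancy forces equality almost everywhere. -/
theorem T5_exact {u : ℂ → ℝ} {K : Set ℂ} (hK : IsClosed K) {y : ℂ} {a b κ : ℝ} (ha : 0 < a)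
    (hab : a ≤ b) (hfin : Dir u (ball y b \ K) < ∞) (hκ : 0 < κ)
    (hdi : ∀ᵐ s ∂(volume.restrict (Ioo a b)), D u K y s ≤ κ * s * (Dp u K y s).toReal) :
    D u K y a / a ^ (1 / κ) ≤ D u K y b / b ^ (1 / κ) := by
  obtain ⟨h1, h2⟩ := t5_inv ha hab
  have hb : 0 < b := ha.trans_le hab
  have hg := t5_gron hK ha.le hab hfin (h1.const_mul (1 / κ)) (by
    filter_upwards [hdi, ae_restrict_mem measurableSet_Ioo] with s hs hs'
    have hs0 : 0 < s := ha.trans hs'.1
    have h8 : 1 / κ * (1 / s) * D u K y s = D u K y s / (κ * s) := by field_simp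
    rw [h8, div_le_iff₀ (by positivity)]
    linarith)
  rw [intervalIntegral.integral_const_mul, h2, mul_comm (1 / κ),
    ← Real.rpow_def_of_pos (div_pos hb ha), Real.div_rpow hb.le ha.le] at hg
  have ha' : 0 < a ^ (1 / κ) := Real.rpow_pos_of_pos ha _
  have hb' : 0 < b ^ (1 / κ) := Real.rpow_pos_of_pos hb _
  rw [le_div_iff₀ hb', div_mul_eq_mul_div, mul_div_assoc]
  exact hg

/-- If `D` is linear in the radius then `Dp` is its slope almost everywhere. -/
theorem Dp_of_linear {u : ℂ → ℝ} {K : Set ℂ} (hK : IsClosed K) {y : ℂ} {d : ℝ}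
    (hfin : ∀ r, Dir u (ball y r \ K) < ∞) (hD : ∀ s, 0 < s → D u K y s = d * s) :
    ∀ᵐ s ∂(volume.restrict (Ioi 0)), Dp u K y s = ENNReal.ofReal d := by
  have hU : Ioi (0 : ℝ) = ⋃ n : ℕ, Ioo (0 : ℝ) (n + 1) := by
    ext s
    simp only [mem_Ioi, mem_iUnion, mem_Ioo]
    constructor
    · intro hs
      obtain ⟨n, hn⟩ := exists_nat_gt s
      exact ⟨n, hs, by linarith⟩
    · rintro ⟨n, hs, -⟩
      exact hs
  rw [hU, ae_restrict_iUnion_iff]
  intro n
  have hb : (0 : ℝ) ≤ n + 1 := by positivity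
  obtain ⟨hint, hlt, hI⟩ := D_int hK hb (hfin (n + 1))
  filter_upwards [hlt, ae_restrict_mem measurableSet_Ioo,
    ae_restrict_of_ae hint.ae_hasDerivAt_integral] with s h1 h2 h3
  rw [uIcc_of_le hb] at h3
  have h4 := (h3 (Ioo_subset_Icc_self h2) 0 ⟨le_rfl, hb⟩).const_add (D u K y 0)
  have h5 : HasDerivAt (fun x : ℝ => d * x) d s := by
    simpa using (hasDerivAt_id s).const_mul d
  have h6 : (fun x : ℝ => d * x) =ᶠ[𝓝 s]
      fun x => D u K y 0 + ∫ t in (0 : ℝ)..x, (Dp u K y t).toReal := by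
    filter_upwards [Ioo_mem_nhds h2.1 h2.2] with x hx
    rw [← hI 0 ⟨le_rfl, hb⟩ x (Ioo_subset_Icc_self hx), hD x hx.1]
  rw [← (h4.congr_of_eventuallyEq h6).unique h5, ENNReal.ofReal_toReal h1.ne]

end Vale.Agent.P128
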