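import Vale.Agent.P128.TB.T4b
import Vale.Agent.P128.TB.Kit
import Vale.Agent.P128.TB.T5

/-! P128 TB/T4c (TASK): the limits. Helper names start with `t4c_`.
`avg_left`: `IntervalIntegrable.ae_hasDerivAt_integral`, `HasDerivAt.tendsto_slope_zero_left` or `hasDerivAt_iff_tendsto_slope_zero` composed with `δ ↦ -δ`.
`T4_M`: `polarK` on `tbA y 0 r` (integrability, `int_T`, `int_g2`) and on `tbA y (s - δ) s` (values) for the three integrands, `tbN_circ`, `avg_left`; the last term is `δ * (δ⁻¹ * ∫ ..) → 0`; `le_of_tendsto_of_tendsto` along `𝓝[>] 0`.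
`T4`: truncations at height `n + 1` (`exists_trunc`, `ae_all_iff`), for `n + 1 ≥ M` the circle integrals do not see the truncation (`setIntegral_congr_fun`, `measurableSet_offK`), `lim_T` with radius `s`; finiteness of `Dp` from `D_int` and `upper_real`. -/

namespace Vale.Agent.P128

open MeasureTheory Set Metric Filter Topology
open scoped ENNReal

theorem avg_left {F : ℝ → ℝ} {r : ℝ} (hF : IntegrableOn F (Ioo 0 r)) :
    ∀ᵐ s ∂(volume.restrict (Ioo 0 r)),
      Tendsto (fun δ : ℝ => δ⁻¹ * ∫ t in Ioo (s - δ) s, F t) (𝓝[>] 0) (𝓝 (F s)) := by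
  rcases le_or_gt r 0 with hr | hr
  · simp [Ioo_eq_empty (not_lt.2 hr)]
  have hI : IntervalIntegrable F volume 0 r := (intervalIntegrable_iff_integrableOn_Ioo_of_le hr.le).2 hF
  have h1 := hI.ae_hasDerivAt_integral
  rw [ae_restrict_iff' measurableSet_Ioo]
  filter_upwards [h1] with s hs hs'
  have hsu : s ∈ uIcc 0 r := by rw [uIcc_of_le hr.le]; exact Ioo_subset_Icc_self hs'
  have h2 := (hs hsu 0 left_mem_uIcc).tendsto_slope_zero_left
  have h3 : Tendsto (fun δ : ℝ => -δ) (𝓝[>] 0) (𝓝[<] 0) := by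
    refine tendsto_nhdsWithin_iff.2 ⟨?_, ?_⟩
    · simpa using (continuous_neg.tendsto (0 : ℝ)).mono_left nhdsWithin_le_nhds
    · filter_upwards [self_mem_nhdsWithin] with δ hδ
      exact neg_neg_of_pos (mem_Ioi.1 hδ)
  refine (h2.comp h3).congr' ?_
  filter_upwards [Ioo_mem_nhdsGT hs'.1] with δ hδ
  have m1 : s + -δ ∈ uIcc 0 r := by
    rw [uIcc_of_le hr.le]; constructor <;> linarith [hδ.1, hδ.2, hs'.2]
  have i1 : IntervalIntegrable F volume 0 (s + -δ) := hI.mono_set (uIcc_subset_uIcc_left m1)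
  have i2 : IntervalIntegrable F volume 0 s := hI.mono_set (uIcc_subset_uIcc_left hsu)
  have e := intervalIntegral.integral_interval_sub_left i2 i1
  have hle : s + -δ ≤ s := by linarith [hδ.1]
  rw [intervalIntegral.integral_of_le hle, integral_Ioc_eq_integral_Ioo] at e
  simp only [Function.comp, smul_eq_mul, sub_eq_add_neg s δ]
  rw [← e, inv_neg]
  ring

theorem T4_M {Ω K : Set ℂ} {ε r M : ℝ} {wk : Prop} {u κ : ℂ → ℝ} {y : ℂ} {T T' : ℝ → ℝ}
    (h : AM0 Ω ε wk u K) (hr : 0 < r) (hB : closedBall y r ⊆ Ω) (hκ : LC (ball y r \ K) κ)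
    (hκb : ∀ z, κ z = 0 ∨ ∃ z' ∈ Ω \ K, |κ z| ≤ |u z'|) (hT : Trunc M T T') :
    ∀ᵐ s ∂(volume.restrict (Ioo 0 r)),
      |(∫ z in ball y s \ K, T' (u z - κ z) * ‖fderiv ℝ u z‖ ^ 2) - ∫ θ in offK K y s,
          s * (T (u (circleMap y s θ) - κ (circleMap y s θ)) * un u y s θ)| ≤ 20 * ε * s * √s +
        ε * ∫ θ in offK K y s, s * |T (u (circleMap y s θ) - κ (circleMap y s θ))| := by
  have hsub : tbA y 0 r \ K ⊆ ball y r \ K := sdiff_subset_sdiff_left fun z hz => hz.2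
  obtain ⟨-, i2, i3⟩ := int_T h hr hB hκ hT
  have i4 := (int_g2 h hr hB).1
  have p2 := (polarK h.closed y le_rfl (i2.mono_set hsub)).1
  have p3 := (polarK h.closed y le_rfl (i3.mono_set hsub)).1
  have p4 := (polarK h.closed y le_rfl (i4.mono_set hsub)).1
  filter_upwards [avg_left p2, avg_left p3, avg_left p4, ae_restrict_mem measurableSet_Ioo]
    with s a2 a3 a4 hs
  simp only [tbN_circ hs.1] at a2
  have a5 := (tendsto_id.mono_left (nhdsWithin_le_nhds (a := (0 : ℝ)) (s := Ioi 0))).mul a4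
  rw [zero_mul] at a5
  have l := ((tendsto_const_nhds (x := ∫ z in ball y s \ K,
    T' (u z - κ z) * ‖fderiv ℝ u z‖ ^ 2)).sub a2).abs
  have l' := ((tendsto_const_nhds (x := 20 * ε * s * √s)).add (a3.const_mul ε)).add a5
  rw [add_zero] at l'
  refine le_of_tendsto_of_tendsto l l' ?_
  filter_upwards [Ioo_mem_nhdsGT hs.1] with δ hδ
  have hsub' : tbA y (s - δ) s \ K ⊆ ball y r \ K :=
    sdiff_subset_sdiff_left fun z hz => hz.2.trans hs.2
  have h0 : 0 ≤ s - δ := by linarith [hδ.2]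
  have key := T4_delta h hB hκ hκb hT hδ.1 hδ.2 hs.2
  rw [(polarK h.closed y h0 (i2.mono_set hsub')).2, (polarK h.closed y h0 (i3.mono_set hsub')).2,
    (polarK h.closed y h0 (i4.mono_set hsub')).2] at key
  simp only [_root_.id]
  rw [mul_inv_cancel_left₀ hδ.1.ne']
  exact key

/-- Outer variation in a disc: the energy is the boundary flux up to errors. -/
theorem T4 {Ω : Set ℂ} {ε : ℝ} {wk : Prop} {u : ℂ → ℝ} {K : Set ℂ} (h : AM0 Ω ε wk u K)
    {y : ℂ} {r : ℝ} (hr : 0 < r) (hB : closedBall y r ⊆ Ω) {κ : ℂ → ℝ}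
    (hκ : LC (ball y r \ K) κ)
    (hκb : ∀ z, κ z = 0 ∨ ∃ z' ∈ Ω \ K, |κ z| ≤ |u z'|) :
    ∀ᵐ s ∂(volume.restrict (Ioo 0 r)), Dp u K y s < ∞ ∧
      ((∃ M, ∀ z ∈ sphere y s \ K, |u z - κ z| ≤ M) →
        |D u K y s - flux u κ K y s| ≤ 20 * ε * s * √s +
          ε * ∫ θ in offK K y s, s * |u (circleMap y s θ) - κ (circleMap y s θ)|) := by
  have hT : ∀ n : ℕ, ∃ T T', Trunc (n + 1) T T' := fun n => exists_trunc (by positivity)
  choose T T' hT using hT
  have hfin : Dir u (ball y r \ K) < ∞ := by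
    rw [(h.upper_real hr hB).2.1]; exact ENNReal.ofReal_lt_top
  filter_upwards [(D_int h.closed hr.le hfin).2.1,
    ae_all_iff.2 fun n => T4_M h hr hB hκ hκb (hT n), ae_restrict_mem measurableSet_Ioo]
    with s h1 h2 hs
  refine ⟨h1, fun ⟨M, hM⟩ => ?_⟩
  have hB' : closedBall y s ⊆ Ω := (closedBall_subset_closedBall hs.2.le).trans hB
  have hκ' : LC (ball y s \ K) κ := fun z hz => hκ z ⟨ball_subset_ball hs.2.le hz.1, hz.2⟩
  have l := ((lim_T h hs.1 hB' hκ' hT).sub_const (flux u κ K y s)).abs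
  refine le_of_tendsto l ?_
  filter_upwards [eventually_ge_atTop ⌈M⌉₊] with n hn
  have e : ∀ θ ∈ offK K y s, T n (u (circleMap y s θ) - κ (circleMap y s θ)) =
      u (circleMap y s θ) - κ (circleMap y s θ) := fun θ hθ => by
    refine ((hT n).eq _ ((hM _ ⟨circleMap_mem_sphere y hs.1.le θ, hθ.2⟩).trans ?_)).1
    have : (⌈M⌉₊ : ℝ) ≤ n := by exact_mod_cast hn
    linarith [Nat.le_ceil M]
  have k := h2 n
  rw [setIntegral_congr_fun (measurableSet_offK h.closed y s)
      (g := fun θ => s * ((u (circleMap y s θ) - κ (circleMap y s θ)) * un u y s θ))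
      (fun θ hθ => by simp only [e θ hθ]),
    setIntegral_congr_fun (measurableSet_offK h.closed y s)
      (f := fun θ => s * |T n (u (circleMap y s θ) - κ (circleMap y s θ))|)
      (g := fun θ => s * |u (circleMap y s θ) - κ (circleMap y s θ)|)
      (fun θ hθ => by simp only [e θ hθ])] at k
  exact k

end Vale.Agent.P128
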