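import Vale.Agent.P128.TB.T4c

/-! P128 TB/T4q (TASK): the outer variation for all functions of `κ` at once. Helper names start with `t4q_`.
`R = κ '' (ball y r \\ K)` is countable (`lc_countable`: the fibres are disjoint open sets, `Set.PairwiseDisjoint.countable_of_isOpen`, or use a countable dense set). Apply `T4` to `g ∘ κ` for the countable family of `g : R →₀ ℚ` (extended by zero, only those that satisfy the size condition), `ae_all_iff`.
Given `f`, choose rationals `q n t → f t` with `|q n t| ≤ |f t|` on the finite set `F = κ '' (sphere \\ K)`, zero elsewhere. With `e n = max_F |q n t - f t| → 0`: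
`|flux (g n ∘ κ) - flux (f ∘ κ)| ≤ e n * s ∫ |un|` and the error terms differ by at most `2 π s e n` (or dominated convergence; `un` is integrable by `Dp_int`, `u - f ∘ κ` is continuous on `ball \\ K` by `cont_w`, bounded on the circle). -/

namespace Vale.Agent.P128

open MeasureTheory Set Metric Filter Topology
open scoped ENNReal

variable {Ω K : Set ℂ} {ε r s δ M : ℝ} {wk : Prop} {u κ : ℂ → ℝ} {y : ℂ} {T T' : ℝ → ℝ}

theorem lc_countable {U : Set ℂ} (hκ : LC U κ) : (κ '' U).Countable := by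
  refine Set.PairwiseDisjoint.countable_of_nonempty_interior (s := fun t => κ ⁻¹' {t})
    (fun a _ b _ hab => Disjoint.preimage κ (disjoint_singleton.2 hab)) ?_
  rintro _ ⟨z, hz, rfl⟩
  exact ⟨z, mem_interior_iff_mem_nhds.2 (hκ z hz)⟩

theorem t4q_rat (x : ℝ) {δ : ℝ} (hδ : 0 < δ) : ∃ q : ℚ, |(q : ℝ)| ≤ |x| ∧ |(q : ℝ) - x| ≤ δ := by
  rcases lt_trichotomy x 0 with hx | rfl | hx
  · obtain ⟨q, h1, h2⟩ := exists_rat_btwn (lt_min hx (lt_add_of_pos_right x hδ))
    have h3 := lt_min_iff.1 h2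
    exact ⟨q, by rw [abs_of_neg h3.1, abs_of_neg hx]; linarith,
      by rw [abs_of_pos (sub_pos.2 h1)]; linarith [h3.2]⟩
  · exact ⟨0, by simp, by simp [hδ.le]⟩
  · obtain ⟨q, h1, h2⟩ := exists_rat_btwn (max_lt hx (sub_lt_self x hδ))
    have h3 := max_lt_iff.1 h1
    exact ⟨q, by rw [abs_of_pos h3.1, abs_of_pos hx]; linarith,
      by rw [abs_of_neg (sub_neg.2 h2)]; linarith [h3.2]⟩

theorem t4q_lim (h : AM0 Ω ε wk u K) (hB : ball y r ⊆ Ω) (hs : s ∈ Ioo 0 r)
    (hD : Dp u K y s < ∞) {k : ℕ → ℂ → ℝ} (hk : ∀ n, LC (ball y r \ K) (k n))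
    (hb : ∀ n, ∀ z ∈ sphere y s \ K, |u z - k n z| ≤ M)
    (hl : ∀ z ∈ sphere y s \ K, Tendsto (fun n => k n z) atTop (𝓝 (κ z)))
    (hO : ∀ n, OV ε u (k n) K y s) : OV ε u κ K y s := by
  have hm := measurableSet_offK h.closed y s
  have hfin : volume (offK K y s) ≠ ∞ :=
    ((measure_mono fun θ hθ => hθ.1).trans_lt measure_Ioc_lt_top).ne
  have hmem : ∀ θ ∈ offK K y s, circleMap y s θ ∈ sphere y s \ K := fun θ hθ =>
    ⟨circleMap_mem_sphere y hs.1.le θ, hθ.2⟩
  have hc : ∀ n, AEStronglyMeasurable (fun θ => u (circleMap y s θ) - k n (circleMap y s θ))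
      (volume.restrict (offK K y s)) := fun n =>
    ((cont_w h hB (hk n)).comp (continuous_circleMap y s).continuousOn fun θ hθ =>
      ⟨sphere_subset_ball hs.2 (hmem θ hθ).1, hθ.2⟩).aestronglyMeasurable hm
  have hp : ∀ᵐ θ ∂(volume.restrict (offK K y s)),
      Tendsto (fun n => u (circleMap y s θ) - k n (circleMap y s θ)) atTop
        (𝓝 (u (circleMap y s θ) - κ (circleMap y s θ))) :=
    (ae_restrict_mem hm).mono fun θ hθ => tendsto_const_nhds.sub (hl _ (hmem θ hθ))
  have h1 : Tendsto (fun n => flux u (k n) K y s) atTop (𝓝 (flux u κ K y s)) := by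
    refine tendsto_integral_of_dominated_convergence
      (fun θ => s * (M * (1 + un u y s θ ^ 2)))
      (fun n => ((hc n).mul (un_meas u y s).1.aestronglyMeasurable).const_mul s)
      ((((integrableOn_const hfin).add (Dp_int hs.1 hD).1).const_mul M).const_mul s)
      (fun n => (ae_restrict_mem hm).mono fun θ hθ => ?_)
      (hp.mono fun θ hθ => (hθ.mul_const _).const_mul s)
    have h2 := hb n _ (hmem θ hθ)
    rw [Real.norm_eq_abs, abs_mul, abs_mul, abs_of_pos hs.1]
    refine mul_le_mul_of_nonneg_left (mul_le_mul h2 ?_ (abs_nonneg _)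
      ((abs_nonneg _).trans h2)) hs.1.le
    change |un u y s θ| ≤ _
    rw [← sq_abs]
    nlinarith [sq_nonneg (|un u y s θ| - 1), abs_nonneg (un u y s θ)]
  have h2 : Tendsto (fun n => ∫ θ in offK K y s, s * |u (circleMap y s θ) - k n (circleMap y s θ)|)
      atTop (𝓝 (∫ θ in offK K y s, s * |u (circleMap y s θ) - κ (circleMap y s θ)|)) := by
    refine tendsto_integral_of_dominated_convergence (fun _ => s * M)
      (fun n => (continuous_abs.comp_aestronglyMeasurable (hc n)).const_mul s)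
      (integrableOn_const hfin) (fun n => (ae_restrict_mem hm).mono fun θ hθ => ?_)
      (hp.mono fun θ hθ => hθ.abs.const_mul s)
    rw [Real.norm_eq_abs, abs_mul, abs_abs, abs_of_pos hs.1]
    exact mul_le_mul_of_nonneg_left (hb n _ (hmem θ hθ)) hs.1.le
  exact le_of_tendsto_of_tendsto' (tendsto_const_nhds.sub h1).abs
    (tendsto_const_nhds.add (h2.const_mul ε)) hO

theorem t4q_lc {U : Set ℂ} (hκ : LC U κ) (f : ℝ → ℝ) : LC U fun z => f (κ z) :=
  fun z hz => (hκ z hz).mono fun _ hw => congrArg f hw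

theorem T4_all (h : AM0 Ω ε wk u K) (hr : 0 < r) (hB : closedBall y r ⊆ Ω)
    (hκ : LC (ball y r \ K) κ) : ∀ᵐ s ∂(volume.restrict (Ioo 0 r)), Dp u K y s < ∞ ∧
      ((κ '' (sphere y s \ K)).Finite → (∃ M, ∀ z ∈ sphere y s \ K, |u z| ≤ M) →
        ∀ f : ℝ → ℝ, (∀ t, f t = 0 ∨ ∃ z' ∈ Ω \ K, |f t| ≤ |u z'|) →
          OV ε u (fun z => f (κ z)) K y s) := by
  classical
  set R := κ '' (ball y r \ K) with hR
  have : Countable R := (lc_countable hκ).to_subtype
  set e : (R →₀ ℚ) → ℝ → ℝ := fun g t => if ht : t ∈ R then (g ⟨t, ht⟩ : ℝ) else 0 with he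
  have h1 : ∀ g : R →₀ ℚ, ∀ᵐ s ∂(volume.restrict (Ioo 0 r)),
      (∀ t, e g t = 0 ∨ ∃ z' ∈ Ω \ K, |e g t| ≤ |u z'|) →
        (∃ M, ∀ z ∈ sphere y s \ K, |u z - e g (κ z)| ≤ M) → OV ε u (fun z => e g (κ z)) K y s := by
    intro g
    by_cases hg : ∀ t, e g t = 0 ∨ ∃ z' ∈ Ω \ K, |e g t| ≤ |u z'|
    · exact (T4 h hr hB (t4q_lc hκ (e g)) fun z => hg _).mono fun s hs _ => hs.2
    · exact Eventually.of_forall fun s hs => absurd hs hg
  filter_upwards [ae_all_iff.2 h1, T4 h hr hB (t4q_lc hκ fun _ => 0) fun _ => Or.inl rfl,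
    ae_restrict_mem measurableSet_Ioo] with s h2 h3 hs
  refine ⟨h3.1, fun hF ⟨M, hM⟩ f hf => ?_⟩
  set F := κ '' (sphere y s \ K) with hFd
  have hFR : F ⊆ R := image_mono (diff_subset_diff_left (sphere_subset_ball hs.2))
  choose q hq1 hq2 using fun (n : ℕ) (t : ℝ) => t4q_rat (f t) (Nat.one_div_pos_of_nat (n := n))
  obtain ⟨B, hB'⟩ := (hF.image fun t => |f t|).bddAbove
  set g : ℕ → R →₀ ℚ := fun n => Finsupp.ofSupportFinite
    (fun t : R => if t.1 ∈ F then q n t.1 else 0)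
    ((hF.preimage Subtype.val_injective.injOn).subset fun t ht => by
      by_contra h0
      exact ht (if_neg h0)) with hg
  have hge : ∀ n t, e (g n) t = if t ∈ F then (q n t : ℝ) else 0 := by
    intro n t
    simp only [he, hg, Finsupp.ofSupportFinite_coe]
    by_cases ht : t ∈ F
    · rw [dif_pos (hFR ht), if_pos ht, if_pos ht]
    · split_ifs <;> simp
  have hb : ∀ n, ∀ z ∈ sphere y s \ K, |u z - e (g n) (κ z)| ≤ M + B := fun n z hz => by
    rw [hge, if_pos (mem_image_of_mem κ hz)]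
    exact (abs_sub _ _).trans (add_le_add (hM z hz)
      ((hq1 n _).trans (hB' (mem_image_of_mem _ (mem_image_of_mem κ hz)))))
  refine t4q_lim h (ball_subset_closedBall.trans hB) hs h3.1 (fun n => t4q_lc hκ (e (g n))) hb
    (fun z hz => ?_) fun n => h2 (g n) (fun t => ?_) ⟨_, hb n⟩
  · simp only [hge, if_pos (show κ z ∈ F from mem_image_of_mem κ hz)]
    exact tendsto_iff_dist_tendsto_zero.2 (squeeze_zero (fun _ => dist_nonneg) (fun n => hq2 n _)
      tendsto_one_div_add_atTop_nhds_zero_nat)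
  · rw [hge]
    split_ifs
    · rcases hf t with h0 | ⟨z', hz', h0⟩
      · exact Or.inl (abs_nonpos_iff.1 (by simpa [h0] using hq1 n t))
      · exact Or.inr ⟨z', hz', (hq1 n t).trans h0⟩
    · exact Or.inl rfl

end Vale.Agent.P128
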