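import Mathlib

/-! P128 TB/W1 (TASK): Dirichlet Wirtinger inequality. Helper names start with `w1_`.
`sq_sub_le`: `intervalIntegral.integral_eq_sub_of_hasDerivAt_of_le`, then Cauchy-Schwarz (expand `0 ≤ ∫ (f' - m)²` with `m` the mean, or `integral_mul_le_Lp_mul_Lq`).
`W1_core`: `k = π / (b - a)`, `g t = k cos (k (t - a)) / sin (k (t - a))`, `g' = -k² - g²`, so `f'² - k² f² = (f' - g f)² + (g f²)'`. Integrate on `[a + e, b - e] ⊇ [c, d]`;
`|g (a + e)| ≤ 1 / e` (`Real.lt_tan` / `x cos x ≤ sin x` on `[0, π/2]`), `f (a + e)² ≤ e ∫_(a, a+e) f'²` by `sq_sub_le`, the last integral tends to `0` (continuity of the primitive); the same at `b`. Let `e → 0`.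
`W1`: first part with `c = d`; equality: the continuous function `(f' - g f)²` has zero integral on every `[c, d]`, so `f / sin (k (t - a))` has zero derivative on `Ioo a b`
(`IsOpen.exists_is_const_of_deriv_eq_zero` or `constant_of_has_deriv_right_zero`); end points by `ha`, `hb`. -/

namespace Vale.Agent.P128

open MeasureTheory Set Metric Filter Topology
open scoped ENNReal

theorem w1_ioo {F : ℝ → ℝ} {a b : ℝ} (hab : a ≤ b) : ∫ t in a..b, F t = ∫ t in Ioo a b, F t := by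
  rw [intervalIntegral.integral_of_le hab, integral_Ioc_eq_integral_Ioo]

theorem sq_sub_le {f f' : ℝ → ℝ} {a b : ℝ} (hab : a ≤ b) (hc : ContinuousOn f (Icc a b))
    (hd : ∀ t ∈ Ioo a b, HasDerivAt f (f' t) t) (hL : MemLp f' 2 (volume.restrict (Ioo a b))) :
    (f b - f a) ^ 2 ≤ (b - a) * ∫ t in Ioo a b, f' t ^ 2 := by
  rcases hab.eq_or_lt with rfl | hlt
  · simp
  have hi : IntegrableOn f' (Ioo a b) := hL.integrable one_le_two
  have h1 := intervalIntegral.integral_eq_sub_of_hasDerivAt_of_le hab hc hd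
    ((intervalIntegrable_iff_integrableOn_Ioo_of_le hab).2 hi)
  rw [w1_ioo hab] at h1
  have hL0 : 0 < b - a := sub_pos.2 hlt
  obtain ⟨m, hm⟩ : ∃ m, f b - f a = m * (b - a) := ⟨_, (div_mul_cancel₀ _ hL0.ne').symm⟩
  have h2 : ∫ t in Ioo a b, (2 * m * f' t - m ^ 2) ≤ ∫ t in Ioo a b, f' t ^ 2 :=
    integral_mono ((hi.const_mul _).sub (integrable_const _)) hL.integrable_sq
      fun t => by nlinarith [sq_nonneg (f' t - m)]
  rw [integral_sub (hi.const_mul _) (integrable_const _), integral_const_mul, h1,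
    setIntegral_const, Real.volume_real_Ioo_of_le hab, smul_eq_mul, hm] at h2
  rw [hm]
  nlinarith [mul_le_mul_of_nonneg_left h2 hL0.le]

theorem w1_lim {F : ℝ → ℝ} {a b c d Y : ℝ} (hF : ContinuousOn F (Icc a b)) (hac : a < c)
    (hcd : c ≤ d) (hdb : d < b) (h : ∀ p ∈ Ioo a c, ∀ q ∈ Ioo d b, F q - F p ≤ Y) :
    F b - F a ≤ Y := by
  have hab : a < b := hac.trans (hcd.trans_lt hdb)
  have Ta : Tendsto F (𝓝[>] a) (𝓝 (F a)) :=
    (hF a (left_mem_Icc.2 hab.le)).mono_of_mem_nhdsWithin (Icc_mem_nhdsGT hab)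
  have Tb : Tendsto F (𝓝[<] b) (𝓝 (F b)) :=
    (hF b (right_mem_Icc.2 hab.le)).mono_of_mem_nhdsWithin (Icc_mem_nhdsLT hab)
  refine le_of_tendsto ((Tb.comp tendsto_snd).sub (Ta.comp tendsto_fst)) ?_
  filter_upwards [prod_mem_prod (Ioo_mem_nhdsGT hac) (Ioo_mem_nhdsLT hdb)] with z hz
  exact h _ hz.1 _ hz.2

theorem w1_sin {k a b : ℝ} (hk : 0 < k) (h : k * (b - a) = Real.pi) :
    ∀ t ∈ Ioo a b, 0 < Real.sin (k * (t - a)) := fun t ht =>
  Real.sin_pos_of_pos_of_lt_pi (mul_pos hk (sub_pos.2 ht.1)) (by nlinarith [ht.2])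

theorem w1_cot {k e x I : ℝ} (hk : 0 < k) (he : 0 < e) (h : k * e < Real.pi) (hx : x ^ 2 ≤ e * I) :
    k * Real.cos (k * e) / Real.sin (k * e) * x ^ 2 ≤ I := by
  have h0 := mul_pos hk he
  have hs := Real.sin_pos_of_pos_of_lt_pi h0 h
  have h1 : k * e * Real.cos (k * e) ≤ Real.sin (k * e) := by
    rcases lt_or_ge (k * e) (Real.pi / 2) with h2 | h2
    · have h3 := Real.lt_tan h0 h2
      rw [Real.tan_eq_sin_div_cos,
        lt_div_iff₀ (Real.cos_pos_of_mem_Ioo ⟨by linarith [Real.pi_pos], h2⟩)] at h3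
      exact h3.le
    · exact (mul_nonpos_of_nonneg_of_nonpos h0.le
        (Real.cos_nonpos_of_pi_div_two_le_of_le h2 (by linarith [Real.pi_pos]))).trans hs.le
  have h2 : e * (k * Real.cos (k * e) / Real.sin (k * e)) ≤ 1 := by
    rw [← mul_div_assoc, div_le_one hs]
    linarith
  refine le_of_mul_le_mul_left ?_ he
  rw [← mul_assoc]
  exact (mul_le_of_le_one_left (sq_nonneg x) h2).trans hx

theorem w1_der {f : ℝ → ℝ} {f' k a t : ℝ} (hs : Real.sin (k * (t - a)) ≠ 0)
    (hd : HasDerivAt f f' t) :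
    HasDerivAt ((fun t => k * Real.cos (k * (t - a)) / Real.sin (k * (t - a))) * f ^ 2)
      (f' ^ 2 - k ^ 2 * f t ^ 2 -
        (f' - k * Real.cos (k * (t - a)) / Real.sin (k * (t - a)) * f t) ^ 2) t := by
  have h := ((hasDerivAt_id' t).sub_const a).const_mul k
  refine (((h.cos.const_mul k).fun_div h.sin hs).mul (hd.pow 2)).congr_deriv ?_
  simp only [Pi.pow_apply]
  field_simp
  ring

theorem W1_core {f f' : ℝ → ℝ} {a b : ℝ} (hab : a < b) (hc : ContinuousOn f (Icc a b))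
    (hd : ∀ t ∈ Ioo a b, HasDerivAt f (f' t) t) (hc' : ContinuousOn f' (Ioo a b))
    (hL : MemLp f' 2 (volume.restrict (Ioo a b))) (ha : f a = 0) (hb : f b = 0) {c d : ℝ}
    (hac : a < c) (hcd : c ≤ d) (hdb : d < b) :
    ∫ t in c..d, (f' t - Real.pi / (b - a) * Real.cos (Real.pi / (b - a) * (t - a)) /
        Real.sin (Real.pi / (b - a) * (t - a)) * f t) ^ 2 ≤
      (∫ t in Ioo a b, f' t ^ 2) - (Real.pi / (b - a)) ^ 2 * ∫ t in Ioo a b, f t ^ 2 := by
  obtain ⟨k, hk⟩ : ∃ k, k = Real.pi / (b - a) := ⟨_, rfl⟩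
  rw [← hk]
  have hπ : k * (b - a) = Real.pi := hk ▸ div_mul_cancel₀ _ (sub_pos.2 hab).ne'
  have k0 : 0 < k := hk ▸ div_pos Real.pi_pos (sub_pos.2 hab)
  have hs := w1_sin k0 hπ
  have hg : ContinuousOn (fun t => k * Real.cos (k * (t - a)) / Real.sin (k * (t - a))) (Ioo a b) :=
    ContinuousOn.div (by fun_prop) (by fun_prop) fun t ht => (hs t ht).ne'
  have i2 : IntervalIntegrable (fun t => f t ^ 2) volume a b :=
    (hc.pow 2).intervalIntegrable_of_Icc hab.le
  have i1 : IntervalIntegrable (fun t => f' t ^ 2) volume a b :=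
    (intervalIntegrable_iff_integrableOn_Ioo_of_le hab.le).2 hL.integrable_sq
  have hF := intervalIntegral.continuousOn_primitive_interval' i2 left_mem_uIcc
  rw [uIcc_of_le hab.le] at hF
  rw [le_sub_comm]
  have key := w1_lim (hF.const_smul (k ^ 2)) hac hcd hdb (Y := (∫ t in Ioo a b, f' t ^ 2) -
    ∫ t in c..d, (f' t - k * Real.cos (k * (t - a)) / Real.sin (k * (t - a)) * f t) ^ 2) ?_
  · simpa only [Pi.smul_apply, smul_eq_mul, intervalIntegral.integral_same, mul_zero, sub_zero,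
      w1_ioo hab.le] using key
  intro p hp q hq
  have hpq : p ≤ q := hp.2.le.trans (hcd.trans hq.1.le)
  have hsub : Icc p q ⊆ Ioo a b := Icc_subset_Ioo hp.1 hq.2
  have hpb : p < b := hpq.trans_lt hq.2
  have haq : a < q := hp.1.trans_le hpq
  have u : ∀ {x y}, a ≤ x → x ≤ y → y ≤ b → uIcc x y ⊆ uIcc a b := fun h1 h2 h3 => by
    rw [uIcc_of_le h2, uIcc_of_le hab.le]
    exact Icc_subset_Icc h1 h3
  have cf := hc.mono (hsub.trans Ioo_subset_Icc_self)
  have i3 : IntervalIntegrable (fun t =>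
      (f' t - k * Real.cos (k * (t - a)) / Real.sin (k * (t - a)) * f t) ^ 2) volume p q :=
    (((hc'.mono hsub).sub ((hg.mono hsub).mul cf)).pow 2).intervalIntegrable_of_Icc hpq
  have j1 := i1.mono_set (u hp.1.le hpq hq.2.le)
  have j2 := i2.mono_set (u hp.1.le hpq hq.2.le)
  have ftc := intervalIntegral.integral_eq_sub_of_hasDerivAt_of_le hpq
    ((hg.mono hsub).mul (cf.pow 2))
    (fun t ht => w1_der (hs t (hsub (Ioo_subset_Icc_self ht))).ne'
      (hd t (hsub (Ioo_subset_Icc_self ht)))) ((j1.sub (j2.const_mul (k ^ 2))).sub i3)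
  rw [intervalIntegral.integral_sub (j1.sub (j2.const_mul _)) i3,
    intervalIntegral.integral_sub j1 (j2.const_mul _), intervalIntegral.integral_const_mul] at ftc
  have m1 := intervalIntegral.integral_mono_interval hp.2.le hcd hq.1.le
    (Eventually.of_forall fun t => sq_nonneg _) i3
  have s1 := intervalIntegral.integral_add_adjacent_intervals
    (i1.mono_set (u le_rfl hp.1.le hpb.le)) j1
  have s2 := intervalIntegral.integral_add_adjacent_intervals
    (i1.mono_set (u le_rfl haq.le hq.2.le)) (i1.mono_set (u haq.le hq.2.le le_rfl))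
  have s3 := intervalIntegral.integral_add_adjacent_intervals
    (i2.mono_set (u le_rfl hp.1.le hpb.le)) j2
  have b1 := sq_sub_le hp.1.le (hc.mono (Icc_subset_Icc_right hpb.le))
    (fun t ht => hd t ⟨ht.1, ht.2.trans hpb⟩)
    (hL.mono_measure (Measure.restrict_mono (Ioo_subset_Ioo_right hpb.le) le_rfl))
  have b2 := sq_sub_le hq.2.le (hc.mono (Icc_subset_Icc_left haq.le))
    (fun t ht => hd t ⟨haq.trans ht.1, ht.2⟩)
    (hL.mono_measure (Measure.restrict_mono (Ioo_subset_Ioo_left haq.le) le_rfl))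
  rw [ha, sub_zero, ← w1_ioo hp.1.le] at b1
  rw [hb, zero_sub, neg_sq, ← w1_ioo hq.2.le] at b2
  have c1 := w1_cot k0 (sub_pos.2 hp.1) (by nlinarith) b1
  have c2 := w1_cot k0 (sub_pos.2 hq.2) (by nlinarith) b2
  rw [show k * (b - q) = Real.pi - k * (q - a) by linarith, Real.cos_pi_sub,
    Real.sin_pi_sub, mul_neg, neg_div, neg_mul] at c2
  simp only [Pi.smul_apply, smul_eq_mul, Pi.mul_apply, Pi.pow_apply] at ftc ⊢
  rw [← w1_ioo hab.le, ← s3]
  linarith

/-- Dirichlet Wirtinger inequality with the equality case. -/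
theorem W1 {f f' : ℝ → ℝ} {a b : ℝ} (hab : a < b) (hc : ContinuousOn f (Icc a b))
    (hd : ∀ t ∈ Ioo a b, HasDerivAt f (f' t) t) (hc' : ContinuousOn f' (Ioo a b))
    (hL : MemLp f' 2 (volume.restrict (Ioo a b))) (ha : f a = 0) (hb : f b = 0) :
    ∫ t in Ioo a b, f t ^ 2 ≤ ((b - a) / Real.pi) ^ 2 * ∫ t in Ioo a b, f' t ^ 2 ∧
    (∫ t in Ioo a b, f t ^ 2 = ((b - a) / Real.pi) ^ 2 * ∫ t in Ioo a b, f' t ^ 2 →
      ∃ A : ℝ, ∀ t ∈ Icc a b, f t = A * Real.sin (Real.pi * (t - a) / (b - a))) := by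
  have L0 : 0 < b - a := sub_pos.2 hab
  have k0 : 0 < Real.pi / (b - a) := div_pos Real.pi_pos L0
  have hπ : Real.pi / (b - a) * (b - a) = Real.pi := div_mul_cancel₀ _ L0.ne'
  have e1 : ((b - a) / Real.pi) ^ 2 * (Real.pi / (b - a)) ^ 2 = 1 := by
    have := Real.pi_pos
    field_simp
  have core := @W1_core f f' a b hab hc hd hc' hL ha hb
  have hs := w1_sin k0 hπ
  simp only [div_mul_eq_mul_div Real.pi (b - a) (_ - a) |>.symm]
  generalize Real.pi / (b - a) = k at *
  refine ⟨?_, fun h => ?_⟩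
  · have := core (c := (a + b) / 2) (by linarith) le_rfl (by linarith)
    rw [intervalIntegral.integral_same] at this
    have h2 := mul_nonneg (sq_nonneg ((b - a) / Real.pi)) this
    rw [mul_sub, ← mul_assoc, e1] at h2
    linarith
  rw [h, ← mul_assoc, mul_comm (k ^ 2), e1, one_mul, sub_self] at core
  have hg : ContinuousOn (fun t => k * Real.cos (k * (t - a)) / Real.sin (k * (t - a))) (Ioo a b) :=
    ContinuousOn.div (by fun_prop) (by fun_prop) fun t ht => (hs t ht).ne'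
  have hz : ∀ t ∈ Ioo a b,
      f' t = k * Real.cos (k * (t - a)) / Real.sin (k * (t - a)) * f t := fun t ht => by
    by_contra hne
    have htd : t < (t + b) / 2 := by linarith [ht.2]
    have hdb : (t + b) / 2 < b := by linarith [ht.2]
    have hsub : Icc t ((t + b) / 2) ⊆ Ioo a b := Icc_subset_Ioo ht.1 hdb
    have := intervalIntegral.integral_lt_integral_of_continuousOn_of_le_of_exists_lt htd
      (continuousOn_const (c := 0))
      (((hc'.sub (hg.mul (hc.mono Ioo_subset_Icc_self))).pow 2).mono hsub)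
      (fun x _ => sq_nonneg _) ⟨t, left_mem_Icc.2 htd.le, sq_pos_of_ne_zero (sub_ne_zero.2 hne)⟩
    rw [intervalIntegral.integral_zero] at this
    exact this.not_ge (core ht.1 htd.le hdb)
  have hq : ∀ t ∈ Ioo a b, HasDerivAt (fun t => f t / Real.sin (k * (t - a))) 0 t := fun t ht => by
    refine ((hd t ht).fun_div (((hasDerivAt_id' t).sub_const a).const_mul k).sin
      (hs t ht).ne').congr_deriv ?_
    have := (hs t ht).ne'
    rw [hz t ht]
    field_simp
    ring
  obtain ⟨A, hA⟩ := isOpen_Ioo.exists_is_const_of_deriv_eq_zero isPreconnected_Ioo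
    (fun t ht => (hq t ht).differentiableAt.differentiableWithinAt) fun t ht => (hq t ht).deriv
  refine ⟨A, fun t ht => ?_⟩
  rcases ht.1.eq_or_lt with rfl | h1
  · rw [ha, sub_self, mul_zero, Real.sin_zero, mul_zero]
  rcases ht.2.eq_or_lt with rfl | h2
  · rw [hb, hπ, Real.sin_pi, mul_zero]
  exact (div_eq_iff (hs t ⟨h1, h2⟩).ne').1 (hA t ⟨h1, h2⟩)

end Vale.Agent.P128
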